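import Vale.Agent.P087.Realisation

/-!
# P086: algebra of Wick words

Concatenation of Wick words, expansion of the Wick words of a rotated family
`z = c • x + d • g`, and linearisation of a product of two Wick words in the limit.
-/

open Filter
open scoped Topology

namespace Vale.Agent.P086

open Vale.Agent.P087 Vale.Agent.P087.Realisation

noncomputable section

/-- Wick words of words meeting at different letters multiply. -/
theorem wick_append {ι A : Type} [DecidableEq ι] [Ring A] (s : ι → A) :
    ∀ (u v : List ι), (∀ a b, u.getLast? = some a → v.head? = some b → a ≠ b) →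
      wickOf s (u ++ v) = wickOf s u * wickOf s v
  | [], v, _ => by simp [wickOf]
  | [a], v, h => by
      have hh : v.head? ≠ some a := fun e => h a a (by simp) e rfl
      rw [List.singleton_append, wick_cons, hdTerm, if_neg hh, sub_zero]
      simp [wickOf]
  | a :: b :: u, v, h => by
      have h1 := wick_append s (b :: u) v (by simpa using h)
      have h2 : wickOf s (u ++ v) = wickOf s u * wickOf s v := by
        refine wick_append s u v fun p q hp hq => h p q ?_ hq
        cases u with
        | nil => simp at hp
        | cons c u => simpa [List.getLast?_cons_cons] using hp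
      simp only [List.cons_append, wickOf] at h1 ⊢
      rw [h1, h2]
      split_ifs <;> noncomm_ring
  termination_by u => u.length

section Colour

variable {α : Type} {E : Type} [AddCommGroup E] [Module ℂ E]

/-- The sum over colourings of a word, `inl` with weight `c` and `inr` with weight `d`. -/
def cs (c d : ℂ) : List α → (List (α ⊕ α) → E) → E
  | [], G => G []
  | a :: w, G =>
      c • cs c d w (fun u => G (Sum.inl a :: u)) + d • cs c d w (fun u => G (Sum.inr a :: u))

theorem cs_add (c d : ℂ) : ∀ (w : List α) (G G' : List (α ⊕ α) → E),
    cs c d w (fun u => G u + G' u) = cs c d w G + cs c d w G'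
  | [], _, _ => rfl
  | a :: w, G, G' => by
      simp only [cs, cs_add c d w]
      module

theorem cs_zero (c d : ℂ) : ∀ w : List α, cs c d w (fun _ => (0 : E)) = 0
  | [] => rfl
  | a :: w => by simp [cs, cs_zero c d w]

theorem cs_map (c d : ℂ) {E' : Type} [AddCommGroup E'] [Module ℂ E'] (φ : E →ₗ[ℂ] E') :
    ∀ (w : List α) (G : List (α ⊕ α) → E), φ (cs c d w G) = cs c d w (fun u => φ (G u))
  | [], _ => rfl
  | a :: w, G => by simp [cs, cs_map c d φ w]

theorem tendsto_cs (c d : ℂ) : ∀ (w : List α) (G : ℕ → List (α ⊕ α) → ℂ) (L : List (α ⊕ α) → ℂ),
    (∀ u, Tendsto (fun r => G r u) atTop (𝓝 (L u))) →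
      Tendsto (fun r => cs c d w (G r)) atTop (𝓝 (cs c d w L))
  | [], _, _, h => h []
  | a :: w, G, L, h => by
      simp only [cs]
      exact ((tendsto_cs c d w _ _ fun u => h _).const_smul c).add
        ((tendsto_cs c d w _ _ fun u => h _).const_smul d)

theorem cs_supported_inl (c d : ℂ) : ∀ (w : List α) (G : List (α ⊕ α) → ℂ) (h : List α → ℂ),
    (∀ v : List α, G (v.map Sum.inl) = h v) →
    (∀ u, (∃ e ∈ u, Sum.isRight e = true) → G u = 0) →
      cs c d w G = c ^ w.length * h w
  | [], G, h, h1, _ => by simpa [cs] using h1 []
  | a :: w, G, h, h1, h2 => by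
      have e1 := cs_supported_inl c d w (fun u => G (Sum.inl a :: u)) (fun v => h (a :: v))
        (fun v => h1 (a :: v))
        (fun u hu => h2 _ (by obtain ⟨e, he, he'⟩ := hu; exact ⟨e, List.mem_cons_of_mem _ he, he'⟩))
      have e2 : (fun u => G (Sum.inr a :: u)) = fun _ => (0 : ℂ) :=
        funext fun u => h2 _ ⟨Sum.inr a, List.mem_cons_self, rfl⟩
      simp only [cs, e1, e2, cs_zero, smul_eq_mul, List.length_cons]
      ring

/-- Wick words of a rotated family. -/
theorem wick_rotate [DecidableEq α] {A : Type} [Ring A] [Algebra ℂ A] (x g : α → A) (c d : ℂ)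
    (hcd : c * c + d * d = 1) :
    ∀ w : List α, wickOf (fun a => c • x a + d • g a) w = cs c d w (wickOf (Sum.elim x g)) := by
  have main : ∀ (n : ℕ) (w : List α), w.length ≤ n →
      wickOf (fun a => c • x a + d • g a) w = cs c d w (wickOf (Sum.elim x g)) := by
    intro n
    induction n with
    | zero =>
      intro w hw
      rw [List.length_eq_zero_iff.1 (Nat.le_zero.1 hw)]
      rfl
    | succ n ih =>
      intro w hw
      rcases w with _ | ⟨a, w⟩
      · rfl
      have hw' : w.length ≤ n := by simpa using hw
      have hmul : ∀ (e : A), e * cs c d w (wickOf (Sum.elim x g)) =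
          cs c d w (fun u => e * wickOf (Sum.elim x g) u) := fun e =>
        cs_map c d (LinearMap.mulLeft ℂ e) w _
      have hl : ∀ e : α ⊕ α, cs c d w (fun u => Sum.elim x g e * wickOf (Sum.elim x g) u) =
          cs c d w (fun u => wickOf (Sum.elim x g) (e :: u)) +
            cs c d w (fun u => hdTerm (Sum.elim x g) e u) := by
        intro e
        rw [← cs_add]
        congr 1
        funext u
        rw [wick_cons]
        abel
      have key : c • cs c d w (fun u => hdTerm (Sum.elim x g) (Sum.inl a) u) +
          d • cs c d w (fun u => hdTerm (Sum.elim x g) (Sum.inr a) u) =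
          hdTerm (fun a => c • x a + d • g a) a w := by
        rcases w with _ | ⟨b, v⟩
        · simp [cs, hdTerm]
        · have hv : v.length ≤ n := by simp at hw'; omega
          by_cases hab : b = a
          · subst hab
            simp only [cs, hdTerm, List.head?_cons, Option.some.injEq, List.tail_cons,
              reduceCtorEq, if_true, if_false, cs_zero, smul_zero, add_zero, zero_add]
            rw [ih v hv, smul_smul, smul_smul, ← add_smul, hcd, one_smul]
          · simp [cs, hdTerm, hab, cs_zero]
      rw [wick_cons, ih w hw', add_mul, smul_mul_assoc, smul_mul_assoc, hmul, hmul,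
        show x a = Sum.elim x g (Sum.inl a) from rfl, show g a = Sum.elim x g (Sum.inr a) from rfl,
        hl, hl, ← key]
      simp only [cs]
      module
  exact fun w => main w.length w le_rfl

end Colour

/-- If the Wick words have trace tending to that of a free semicircular family, so have products of
two Wick words. -/
theorem tendsto_wick_pair {α A : Type} [DecidableEq α] [Ring A] [Algebra ℂ A] (φ : A →ₗ[ℂ] ℂ)
    (s : ℕ → α → A)
    (h : ∀ w : List α, Tendsto (fun r => φ (wickOf (s r) w)) atTop (𝓝 (if w = [] then 1 else 0))) :
    ∀ u v : List α, Tendsto (fun r => φ (wickOf (s r) u.reverse * wickOf (s r) v)) atTop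
      (𝓝 (if u = v then 1 else 0)) := by
  have main : ∀ (n : ℕ) (u v : List α), u.length ≤ n →
      Tendsto (fun r => φ (wickOf (s r) u.reverse * wickOf (s r) v)) atTop
        (𝓝 (if u = v then 1 else 0)) := by
    intro n
    induction n with
    | zero =>
      intro u v hu
      rw [List.length_eq_zero_iff.1 (Nat.le_zero.1 hu)]
      simpa [wickOf, eq_comm] using h v
    | succ n ih =>
      intro u v hu
      rcases u with _ | ⟨a, u⟩
      · simpa [wickOf, eq_comm] using h v
      have hu' : u.length ≤ n := by simpa using hu
      have e : ∀ r, wickOf (s r) (a :: u).reverse * wickOf (s r) v =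
          wickOf (s r) u.reverse * wickOf (s r) (a :: v) +
            (if v.head? = some a then wickOf (s r) u.reverse * wickOf (s r) v.tail else 0) -
            (if u.head? = some a then wickOf (s r) u.tail.reverse * wickOf (s r) v else 0) := by
        intro r
        rw [List.reverse_cons, wick_snoc (s r) a _ u.reverse le_rfl, wick_cons, sub_mul,
          mul_assoc, ltTerm, List.getLast?_reverse, List.dropLast_reverse, hdTerm]
        split_ifs <;> noncomm_ring
      have hlim : (if a :: u = v then (1 : ℂ) else 0) =
          (if u = a :: v then 1 else 0) +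
            (if v.head? = some a then (if u = v.tail then 1 else 0) else 0) -
            (if u.head? = some a then (if u.tail = v then 1 else 0) else 0) := by
        have h1 : (if u = a :: v then (1 : ℂ) else 0) =
            (if u.head? = some a then (if u.tail = v then 1 else 0) else 0) := by
          rcases u with _ | ⟨b, u⟩
          · simp
          · by_cases hb : b = a <;> simp [hb]
        have h2 : (if a :: u = v then (1 : ℂ) else 0) =
            (if v.head? = some a then (if u = v.tail then 1 else 0) else 0) := by
          rcases v with _ | ⟨c, v⟩
          · simp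
          · by_cases hc : c = a <;> simp [hc, Ne.symm]
        rw [h1, h2]
        ring
      rw [hlim]
      simp only [e, map_sub, map_add]
      refine ((ih u (a :: v) hu').add ?_).sub ?_
      · by_cases hv : v.head? = some a
        · simp only [if_pos hv]
          exact ih u v.tail hu'
        · simp [if_neg hv]
      · by_cases hu2 : u.head? = some a
        · simp only [if_pos hu2]
          exact ih u.tail v (by simp; omega)
        · simp [if_neg hu2]
  exact fun u v => main u.length u v le_rfl

end

end Vale.Agent.P086
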