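import Vale.Agent.P086.Fock
import Vale.Agent.P086.Wick

/-!
# P086: mixed Wick words of an asymptotically semicircular family and a free semicircular family

If `x_r` is a bounded sequence of families in the algebra of the left letters whose Wick words have
trace tending to zero, then in the free product with the right letters every mixed Wick word is
asymptotically an alternating product of centred elements.
-/

open Filter
open scoped InnerProductSpace Topology

namespace Vale.Agent.P086

open Vale.Agent.P087 Vale.Agent.P087.Realisation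

noncomputable section

/-- Bounded sequences of operators. -/
def Bdd {H : Type} [NormedAddCommGroup H] [InnerProductSpace ℂ H] (X : ℕ → H →L[ℂ] H) : Prop :=
  ∃ C : ℝ, 0 ≤ C ∧ ∀ r, ‖X r‖ ≤ C

namespace Bdd

variable {H : Type} [NormedAddCommGroup H] [InnerProductSpace ℂ H] {X Y : ℕ → H →L[ℂ] H}

theorem const (A : H →L[ℂ] H) : Bdd fun _ => A := ⟨‖A‖, norm_nonneg _, fun _ => le_rfl⟩

theorem mul (hX : Bdd X) (hY : Bdd Y) : Bdd fun r => X r * Y r := by
  obtain ⟨C, hC, hX⟩ := hX
  obtain ⟨D, hD, hY⟩ := hY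
  exact ⟨C * D, mul_nonneg hC hD, fun r =>
    (norm_mul_le _ _).trans (mul_le_mul (hX r) (hY r) (norm_nonneg _) hC)⟩

theorem sub (hX : Bdd X) (hY : Bdd Y) : Bdd fun r => X r - Y r := by
  obtain ⟨C, hC, hX⟩ := hX
  obtain ⟨D, hD, hY⟩ := hY
  exact ⟨C + D, add_nonneg hC hD, fun r =>
    (norm_sub_le _ _).trans (add_le_add (hX r) (hY r))⟩

theorem wick {K : Type} [DecidableEq K] {s : ℕ → K → H →L[ℂ] H} (h : ∀ a, Bdd fun r => s r a) :
    ∀ w : List K, Bdd fun r => wickOf (s r) w
  | [] => const 1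
  | [a] => h a
  | a :: b :: w => by
      simp only [wickOf]
      refine ((h a).mul (wick h (b :: w))).sub ?_
      split_ifs
      · exact wick h w
      · exact const 0

end Bdd

variable {ι : Type} [DecidableEq ι] {m : ℕ}

/-- The letters of a colour: `true` for the left ones. -/
def side (ι : Type) (m : ℕ) : Bool → Set (ι ⊕ Fin m)
  | true => Set.range Sum.inl
  | false => Set.range Sum.inr

omit [DecidableEq ι] in
theorem side_disjoint : Pairwise fun i j => Disjoint (side ι m i) (side ι m j) := by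
  intro i j hij
  rw [Set.disjoint_left]
  rintro e h1 h2
  cases i <;> cases j <;> simp_all [side] <;> obtain ⟨a, rfl⟩ := h1 <;> simp at h2

/-- The algebra of a colour. -/
def Ad (ι : Type) [DecidableEq ι] (m : ℕ) (b : Bool) :
    Subalgebra ℂ (Hil (ι ⊕ Fin m) →L[ℂ] Hil (ι ⊕ Fin m)) :=
  Algebra.adjoin ℂ (ls '' side ι m b)

theorem ls_inl_mem (i : ι) : (ls (Sum.inl i) : Hil (ι ⊕ Fin m) →L[ℂ] _) ∈ Ad ι m true :=
  Algebra.subset_adjoin ⟨_, ⟨i, rfl⟩, rfl⟩

theorem ls_inr_mem (a : Fin m) : (ls (Sum.inr a) : Hil (ι ⊕ Fin m) →L[ℂ] _) ∈ Ad ι m false :=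
  Algebra.subset_adjoin ⟨_, ⟨a, rfl⟩, rfl⟩

theorem Ad_le_alg {b : Bool} {X : Hil (ι ⊕ Fin m) →L[ℂ] Hil (ι ⊕ Fin m)} (h : X ∈ Ad ι m b) :
    X ∈ alg (ι ⊕ Fin m) := by
  have : Ad ι m b ≤ (alg (ι ⊕ Fin m)).toStarSubalgebra.toSubalgebra := by
    refine Algebra.adjoin_le ?_
    rintro _ ⟨e, -, rfl⟩
    exact ls_mem e
  exact this h

/-- Alternating lists of centred elements. -/
def Alt (l : List (Bool × (Hil (ι ⊕ Fin m) →L[ℂ] Hil (ι ⊕ Fin m)))) : Prop :=
  l.IsChain (fun e e' => e.1 ≠ e'.1) ∧ ∀ e ∈ l, e.2 ∈ Ad ι m e.1 ∧ tr (ι ⊕ Fin m) e.2 = 0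

theorem tr_prod_alt {l : List (Bool × (Hil (ι ⊕ Fin m) →L[ℂ] Hil (ι ⊕ Fin m)))} (hne : l ≠ [])
    (h : Alt l) : tr (ι ⊕ Fin m) (l.map Prod.snd).prod = 0 := by
  have hf := Realisation.free Bool (side ι m) side_disjoint l.length
    (fun k => (l[(k : ℕ)]'k.2).1) (fun k => (l[(k : ℕ)]'k.2).2) (List.length_pos_iff.2 hne)
    (fun k => (h.2 _ (List.getElem_mem k.2)).1) (fun k => (h.2 _ (List.getElem_mem k.2)).2)
    (fun k k' hk => by
      have := List.isChain_iff_getElem.1 h.1 k (by omega)
      simpa only [hk] using this)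
  rw [tr_apply]
  convert hf using 3
  refine List.ext_getElem (by simp) fun k h1 h2 => ?_
  simp

variable (x : ℕ → Fin m → Hil (ι ⊕ Fin m) →L[ℂ] Hil (ι ⊕ Fin m))

/-- The family doubled by the free semicircular right letters. -/
def mixed (r : ℕ) : Fin m ⊕ Fin m → Hil (ι ⊕ Fin m) →L[ℂ] Hil (ι ⊕ Fin m) :=
  Sum.elim (x r) fun a => ls (Sum.inr a)

/-- Hypotheses on the left sequence. -/
structure Good : Prop where
  mem : ∀ r a, x r a ∈ Ad ι m true
  bdd : ∀ a, Bdd fun r => x r a
  lim : ∀ v : List (Fin m), Tendsto (fun r => tr (ι ⊕ Fin m) (wickOf (x r) v)) atTop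
    (𝓝 (if v = [] then 1 else 0))

variable {x}

theorem mixed_bdd (hx : Good x) (e : Fin m ⊕ Fin m) : Bdd fun r => mixed x r e := by
  cases e with
  | inl a => exact hx.bdd a
  | inr a => exact Bdd.const _

theorem mixed_mem (hx : Good x) (r : ℕ) (e : Fin m ⊕ Fin m) :
    mixed x r e ∈ Ad ι m e.isLeft := by
  cases e with
  | inl a => exact hx.mem r a
  | inr a => exact ls_inr_mem a

theorem wick_mono_mem (hx : Good x) (r : ℕ) (b : Bool) :
    ∀ u : List (Fin m ⊕ Fin m), (∀ e ∈ u, e.isLeft = b) → wickOf (mixed x r) u ∈ Ad ι m b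
  | [], _ => one_mem _
  | [e], h => h e (by simp) ▸ mixed_mem hx r e
  | e :: e' :: u, h => by
      simp only [wickOf]
      refine sub_mem (mul_mem (h e (by simp) ▸ mixed_mem hx r e)
        (wick_mono_mem hx r b (e' :: u) fun a ha => h a (List.mem_cons_of_mem _ ha))) ?_
      split_ifs
      · exact wick_mono_mem hx r b u fun a ha =>
          h a (List.mem_cons_of_mem _ (List.mem_cons_of_mem _ ha))
      · exact zero_mem _

theorem exists_map_inl {α β : Type} : ∀ u : List (α ⊕ β), (∀ e ∈ u, e.isLeft = true) →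
    ∃ v : List α, u = v.map Sum.inl
  | [], _ => ⟨[], rfl⟩
  | Sum.inl a :: u, h => by
      obtain ⟨v, hv⟩ := exists_map_inl u fun e he => h e (List.mem_cons_of_mem _ he)
      exact ⟨a :: v, by simp [hv]⟩
  | Sum.inr a :: u, h => by simpa using h (Sum.inr a) (by simp)

theorem exists_map_inr {α β : Type} : ∀ u : List (α ⊕ β), (∀ e ∈ u, e.isLeft = false) →
    ∃ v : List β, u = v.map Sum.inr
  | [], _ => ⟨[], rfl⟩
  | Sum.inr a :: u, h => by
      obtain ⟨v, hv⟩ := exists_map_inr u fun e he => h e (List.mem_cons_of_mem _ he)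
      exact ⟨a :: v, by simp [hv]⟩
  | Sum.inl a :: u, h => by simpa using h (Sum.inl a) (by simp)

theorem mixed_map_inl (r : ℕ) (v : List (Fin m)) :
    wickOf (mixed x r) (v.map Sum.inl) = wickOf (x r) v :=
  (wickOf_comp (mixed x r) Sum.inl Sum.inl_injective v).symm

theorem mixed_map_inr (r : ℕ) (v : List (Fin m)) :
    wickOf (mixed x r) (v.map Sum.inr) =
      wickOf (ls : ι ⊕ Fin m → _) (v.map Sum.inr) := by
  rw [← wickOf_comp (mixed x r) Sum.inr Sum.inr_injective v,
    ← wickOf_comp (ls : ι ⊕ Fin m → _) Sum.inr Sum.inr_injective v]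
  rfl

theorem tendsto_mono (hx : Good x) {b : Bool} {u : List (Fin m ⊕ Fin m)} (hu : u ≠ [])
    (h : ∀ e ∈ u, e.isLeft = b) :
    Tendsto (fun r => tr (ι ⊕ Fin m) (wickOf (mixed x r) u)) atTop (𝓝 0) := by
  cases b with
  | true =>
    obtain ⟨v, rfl⟩ := exists_map_inl u h
    simp only [mixed_map_inl]
    have := hx.lim v
    rwa [if_neg (by simpa using hu)] at this
  | false =>
    obtain ⟨v, rfl⟩ := exists_map_inr u h
    simp only [mixed_map_inr, tr_wick_ls]
    simp [show v ≠ [] by simpa using hu]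

/-- The centring of an operator. -/
def ctr (X : Hil (ι ⊕ Fin m) →L[ℂ] Hil (ι ⊕ Fin m)) : Hil (ι ⊕ Fin m) →L[ℂ] Hil (ι ⊕ Fin m) :=
  X - tr (ι ⊕ Fin m) X • 1

theorem ctr_mem {b : Bool} {X : Hil (ι ⊕ Fin m) →L[ℂ] Hil (ι ⊕ Fin m)} (h : X ∈ Ad ι m b) :
    ctr X ∈ Ad ι m b := sub_mem h (Subalgebra.smul_mem _ (one_mem _) _)

theorem tr_ctr (X : Hil (ι ⊕ Fin m) →L[ℂ] Hil (ι ⊕ Fin m)) : tr (ι ⊕ Fin m) (ctr X) = 0 := by
  simp [ctr, tr_one]

theorem norm_sub_ctr (X : Hil (ι ⊕ Fin m) →L[ℂ] Hil (ι ⊕ Fin m)) :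
    ‖X - ctr X‖ ≤ ‖tr (ι ⊕ Fin m) X‖ := by
  rw [ctr, sub_sub_cancel, norm_smul, norm_one, mul_one]

/-- A Wick word is asymptotically an alternating product of centred elements. -/
theorem exists_alt (hx : Good x) :
    ∀ (v u : List (Fin m ⊕ Fin m)) (b : Bool), u ≠ [] → (∀ e ∈ u, e.isLeft = b) →
      ∃ l : ℕ → List (Bool × (Hil (ι ⊕ Fin m) →L[ℂ] Hil (ι ⊕ Fin m))),
        (∀ r, Alt (l r) ∧ (l r).head?.map Prod.fst = some b) ∧
          Tendsto (fun r => ‖wickOf (mixed x r) (u ++ v) - ((l r).map Prod.snd).prod‖) atTop (𝓝 0)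
  | [], u, b, hu, hb => by
      refine ⟨fun r => [(b, ctr (wickOf (mixed x r) u))], fun r => ⟨⟨by simp, ?_⟩, rfl⟩, ?_⟩
      · intro e he
        rw [List.mem_singleton] at he
        subst he
        exact ⟨ctr_mem (wick_mono_mem hx r b u hb), tr_ctr _⟩
      · refine squeeze_zero (fun r => norm_nonneg _) (fun r => ?_)
          (tendsto_zero_iff_norm_tendsto_zero.1 (tendsto_mono hx hu hb))
        simpa using norm_sub_ctr (wickOf (mixed x r) u)
  | e :: v, u, b, hu, hb => by
      by_cases he : e.isLeft = b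
      · have := exists_alt hx v (u ++ [e]) b (by simp) (by
          intro a ha
          rcases List.mem_append.1 ha with ha | ha
          · exact hb a ha
          · rwa [List.mem_singleton.1 ha])
        simpa [List.append_assoc] using this
      · obtain ⟨l, hl, hlim⟩ := exists_alt hx v [e] e.isLeft (by simp) (by simp)
        refine ⟨fun r => (b, ctr (wickOf (mixed x r) u)) :: l r, fun r => ⟨⟨?_, ?_⟩, rfl⟩, ?_⟩
        · refine List.IsChain.cons (hl r).1.1 fun y hy => ?_
          have h2 := (hl r).2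
          rw [Option.mem_def.1 hy] at h2
          simp only [Option.map_some, Option.some.injEq] at h2
          simpa [h2] using Ne.symm he
        · intro a ha
          rcases List.mem_cons.1 ha with rfl | ha
          · exact ⟨ctr_mem (wick_mono_mem hx r b u hb), tr_ctr _⟩
          · exact (hl r).1.2 a ha
        · obtain ⟨C, hC, hCb⟩ := Bdd.wick (mixed_bdd hx) (e :: v)
          obtain ⟨D, hD, hDb⟩ := Bdd.wick (mixed_bdd hx) u
          have hlim' : Tendsto (fun r => ‖tr (ι ⊕ Fin m) (wickOf (mixed x r) u)‖ * C +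
              2 * D * ‖wickOf (mixed x r) ([e] ++ v) - ((l r).map Prod.snd).prod‖) atTop (𝓝 0) := by
            simpa using (((tendsto_mono hx hu hb).norm).mul_const C).add (hlim.const_mul (2 * D))
          refine squeeze_zero (fun r => norm_nonneg _) (fun r => ?_) hlim'
          have hsplit : wickOf (mixed x r) (u ++ e :: v) =
              wickOf (mixed x r) u * wickOf (mixed x r) (e :: v) := by
            refine wick_append _ _ _ fun p q hp hq hpq => he ?_
            simp only [List.head?_cons, Option.some.injEq] at hq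
            subst hq hpq
            exact hb _ (List.mem_of_mem_getLast? hp)
          rw [List.map_cons, List.prod_cons, hsplit, List.singleton_append]
          set A := wickOf (mixed x r) u with hA
          set B := wickOf (mixed x r) (e :: v) with hB
          set P := ((l r).map Prod.snd).prod
          have e1 : A * B - ctr A * P = (A - ctr A) * B + ctr A * (B - P) := by noncomm_ring
          rw [e1]
          refine (norm_add_le _ _).trans (add_le_add ?_ ?_)
          · exact (norm_mul_le _ _).trans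
              (mul_le_mul (norm_sub_ctr A) (hCb r) (norm_nonneg _) (norm_nonneg _))
          · refine (norm_mul_le _ _).trans (mul_le_mul_of_nonneg_right ?_ (norm_nonneg _))
            have h1 : ‖ctr A‖ ≤ ‖A‖ + ‖tr (ι ⊕ Fin m) A‖ := by
              refine (norm_sub_le _ _).trans ?_
              rw [norm_smul, norm_one, mul_one]
            have h2 : ‖tr (ι ⊕ Fin m) A‖ ≤ ‖A‖ := (norm_tr_le A).trans (norm_apply_le A)
            linarith [hDb r]

/-- A left element times an alternating product starting on the right has trace zero. -/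
theorem tr_left_mul_alt {l : List (Bool × (Hil (ι ⊕ Fin m) →L[ℂ] Hil (ι ⊕ Fin m)))}
    {A : Hil (ι ⊕ Fin m) →L[ℂ] Hil (ι ⊕ Fin m)} (hA : A ∈ Ad ι m true) (hl : Alt l)
    (hh : l.head?.map Prod.fst = some false) :
    tr (ι ⊕ Fin m) (A * (l.map Prod.snd).prod) = 0 := by
  have key : ∀ {l : List (Bool × (Hil (ι ⊕ Fin m) →L[ℂ] Hil (ι ⊕ Fin m)))} {A}, A ∈ Ad ι m true →
      Alt l → l.head?.map Prod.fst = some false →
        tr (ι ⊕ Fin m) (A * (l.map Prod.snd).prod) = 0 := by
    intro l A hA hl hh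
    have hne : l ≠ [] := by rintro rfl; simp at hh
    have h1 : tr (ι ⊕ Fin m) (ctr A * (l.map Prod.snd).prod) = 0 := by
      have hal : Alt ((true, ctr A) :: l) := by
        refine ⟨List.IsChain.cons hl.1 fun y hy => ?_, fun a ha => ?_⟩
        · rw [Option.mem_def.1 hy] at hh
          simp only [Option.map_some, Option.some.injEq] at hh
          simp [hh]
        · rcases List.mem_cons.1 ha with rfl | ha
          · exact ⟨ctr_mem hA, tr_ctr A⟩
          · exact hl.2 a ha
      simpa using tr_prod_alt (List.cons_ne_nil _ _) hal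
    have h2 := tr_prod_alt hne hl
    rw [ctr, sub_mul, smul_mul_assoc, one_mul, map_sub, map_smul, h2, smul_zero, sub_zero] at h1
    exact h1
  exact key hA hl hh

/-- A bounded left sequence times a mixed Wick word starting on the right has trace tending to
zero. -/
theorem tendsto_left_mul (hx : Good x) {A : ℕ → Hil (ι ⊕ Fin m) →L[ℂ] Hil (ι ⊕ Fin m)}
    (hA : ∀ r, A r ∈ Ad ι m true) (hAb : Bdd A) {e : Fin m ⊕ Fin m} (he : e.isLeft = false)
    (v : List (Fin m ⊕ Fin m)) :
    Tendsto (fun r => tr (ι ⊕ Fin m) (A r * wickOf (mixed x r) (e :: v))) atTop (𝓝 0) := by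
  obtain ⟨l, hl, hlim⟩ := exists_alt hx v [e] false (by simp) (by simpa using he)
  obtain ⟨C, hC, hCb⟩ := hAb
  rw [tendsto_zero_iff_norm_tendsto_zero]
  refine squeeze_zero (fun r => norm_nonneg _) (fun r => ?_) (by simpa using hlim.const_mul C)
  set P := ((l r).map Prod.snd).prod
  have e1 : tr (ι ⊕ Fin m) (A r * wickOf (mixed x r) (e :: v)) =
      tr (ι ⊕ Fin m) (A r * (wickOf (mixed x r) ([e] ++ v) - P)) := by
    rw [mul_sub, map_sub, tr_left_mul_alt (hA r) (hl r).1 (hl r).2, sub_zero, List.singleton_append]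
  rw [e1]
  refine (norm_tr_le _).trans ((norm_apply_le _).trans ((norm_mul_le _ _).trans ?_))
  exact mul_le_mul_of_nonneg_right (hCb r) (norm_nonneg _)

theorem mixed_split {u : List (Fin m ⊕ Fin m)} (h : ∃ e ∈ u, e.isRight = true) :
    ∃ (p : List (Fin m)) (e : Fin m) (v : List (Fin m ⊕ Fin m)),
      u = p.map Sum.inl ++ Sum.inr e :: v := by
  induction u with
  | nil => simp at h
  | cons a u ih =>
    cases a with
    | inr a => exact ⟨[], a, u, rfl⟩
    | inl a =>
      obtain ⟨e, he, he'⟩ := h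
      rcases List.mem_cons.1 he with rfl | he
      · simp at he'
      · obtain ⟨p, e', v, rfl⟩ := ih ⟨e, he, he'⟩
        exact ⟨a :: p, e', v, rfl⟩

/-- A bounded left sequence times a mixed Wick word with a right letter. -/
theorem tendsto_left_mul_mixed (hx : Good x) {A : ℕ → Hil (ι ⊕ Fin m) →L[ℂ] Hil (ι ⊕ Fin m)}
    (hA : ∀ r, A r ∈ Ad ι m true) (hAb : Bdd A) {u : List (Fin m ⊕ Fin m)}
    (h : ∃ e ∈ u, e.isRight = true) :
    Tendsto (fun r => tr (ι ⊕ Fin m) (A r * wickOf (mixed x r) u)) atTop (𝓝 0) := by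
  obtain ⟨p, e, v, rfl⟩ := mixed_split h
  have hs : ∀ r, A r * wickOf (mixed x r) (p.map Sum.inl ++ Sum.inr e :: v) =
      (A r * wickOf (mixed x r) (p.map Sum.inl)) * wickOf (mixed x r) (Sum.inr e :: v) := fun r => by
    rw [wick_append, mul_assoc]
    intro a b ha hb hab
    simp only [List.head?_cons, Option.some.injEq] at hb
    subst hb hab
    simpa using List.mem_of_mem_getLast? ha
  simp only [hs]
  refine tendsto_left_mul hx (fun r => mul_mem (hA r) ?_) (hAb.mul (Bdd.wick (mixed_bdd hx) _)) rfl v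
  exact wick_mono_mem hx r true _ fun a ha => by
    obtain ⟨b, -, rfl⟩ := List.mem_map.1 ha
    rfl

/-- Mixed Wick words have trace tending to that of a free semicircular family. -/
theorem tendsto_mixed (hx : Good x) (u : List (Fin m ⊕ Fin m)) :
    Tendsto (fun r => tr (ι ⊕ Fin m) (wickOf (mixed x r) u)) atTop
      (𝓝 (if u = [] then 1 else 0)) := by
  by_cases h : ∃ e ∈ u, e.isRight = true
  · have hne : u ≠ [] := by rintro rfl; simp at h
    have := tendsto_left_mul_mixed hx (A := fun _ => 1) (fun _ => one_mem _) (Bdd.const 1) h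
    simpa [hne] using this
  · obtain ⟨v, rfl⟩ := exists_map_inl u fun e he => by
      cases e with
      | inl a => rfl
      | inr a => exact absurd ⟨_, he, rfl⟩ h
    simp only [mixed_map_inl]
    simpa using hx.lim v

end

end Vale.Agent.P086
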