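import Vale.Agent.P086.Alt

/-!
# P086: bounded polynomial approximants of the semicircular generators in a second basis

Given a second family `T` in the algebra of `m` free semicirculars, with free semicircular moments
and generating in the vector norm, each generator is a vector-norm limit of uniformly bounded
self-adjoint polynomials in `T`, uniformly bounded also in the free model of `T`.
-/

open Filter
open scoped InnerProductSpace Topology

namespace Vale.Agent.P086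

open Vale.Agent.P087 Vale.Agent.P087.Realisation

noncomputable section

variable {ι : Type} [DecidableEq ι] {m : ℕ}

/-- Noncommutative polynomials with self-adjoint values on self-adjoint arguments. -/
def SA {J : Type} (p : FreeAlgebra ℂ J) : Prop :=
  ∀ (A : Type) [Ring A] [StarRing A] [Algebra ℂ A] [StarModule ℂ A] (x : J → A),
    (∀ a, star (x a) = x a) → IsSelfAdjoint (FreeAlgebra.lift ℂ x p)

/-- Evaluation of a real polynomial in a complex algebra. -/
def ev {A : Type} [Ring A] [Algebra ℂ A] (q : Polynomial ℝ) (X : A) : A :=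
  Polynomial.aeval X (q.map (algebraMap ℝ ℂ))

theorem map_ev {A B : Type} [Ring A] [Algebra ℂ A] [Ring B] [Algebra ℂ B] (φ : A →ₐ[ℂ] B)
    (q : Polynomial ℝ) (X : A) : φ (ev q X) = ev q (φ X) :=
  (Polynomial.aeval_algHom_apply φ X _).symm

theorem isSelfAdjoint_ev {A : Type} [Ring A] [StarRing A] [Algebra ℂ A] [StarModule ℂ A]
    (q : Polynomial ℝ) {X : A} (h : IsSelfAdjoint X) : IsSelfAdjoint (ev q X) := by
  induction q using Polynomial.induction_on' with
  | add p q hp hq =>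
    simp only [ev, Polynomial.map_add, map_add] at hp hq ⊢
    exact hp.add hq
  | monomial n c =>
    simp only [ev, Polynomial.map_monomial, Polynomial.aeval_monomial, IsSelfAdjoint, star_mul,
      star_pow, h.star_eq]
    rw [Algebra.algebraMap_eq_smul_one, star_smul, star_one]
    simp

omit [DecidableEq ι] in
theorem ev_eq_cfc {X : Hil ι →L[ℂ] Hil ι} (h : IsSelfAdjoint X) (q : Polynomial ℝ) :
    ev q X = cfc q.eval X := by
  rw [cfc_polynomial q X h, ev, Polynomial.aeval_map_algebraMap]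

theorem abs_le_norm_of_mem {X : Hil ι →L[ℂ] Hil ι} {t : ℝ} (ht : t ∈ spectrum ℝ X) :
    |t| ≤ ‖X‖ := by
  simpa using spectrum.norm_le_norm_of_mem ht

/-- A second basis of the algebra of `m` free semicirculars. -/
structure Basis (T : ι → Hil (Fin m) →L[ℂ] Hil (Fin m)) : Prop where
  mem : ∀ i, T i ∈ alg (Fin m)
  sa : ∀ i, star (T i) = T i
  moments : ∀ p : FreeAlgebra ℂ ι, tr (Fin m) (FreeAlgebra.lift ℂ T p) =
    tr ι (FreeAlgebra.lift ℂ (ls : ι → Hil ι →L[ℂ] Hil ι) p)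
  gen : ∀ (j : Fin m) (p : Polynomial ℝ) (c : ℝ) (δ : ℝ), 0 < δ → ∃ Q : FreeAlgebra ℂ ι, SA Q ∧
    ‖(FreeAlgebra.lift ℂ T Q - ev p ((c : ℂ) • (ls j : Hil (Fin m) →L[ℂ] Hil (Fin m)))) (bas [])‖ < δ

/-- The letters of `T` in the free product model. -/
def inlT (ι : Type) [DecidableEq ι] (m : ℕ) : ι → Hil (ι ⊕ Fin m) →L[ℂ] Hil (ι ⊕ Fin m) :=
  fun i => ls (Sum.inl i)

theorem exists_sine_poly (R δ : ℝ) (hδ : 0 < δ) :
    ∃ q : Polynomial ℝ, ∀ t, |t| ≤ R → |q.eval t - Real.sin t| ≤ δ := by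
  obtain ⟨q, hq⟩ := exists_polynomial_near_of_continuousOn (-R) R Real.sin
    Real.continuous_sin.continuousOn δ hδ
  exact ⟨q, fun t ht => (hq t (abs_le.1 ht)).le⟩

theorem exists_arcsin_poly (δ : ℝ) (hδ : 0 < δ) :
    ∃ p : Polynomial ℝ, ∀ t, |t| ≤ 1 / 2 → |Real.sin (p.eval t) - t| ≤ δ := by
  obtain ⟨p, hp⟩ := exists_polynomial_near_of_continuousOn (-(1 / 2)) (1 / 2) Real.arcsin
    Real.continuous_arcsin.continuousOn δ hδ
  refine ⟨p, fun t ht => ?_⟩
  have h1 := (Real.abs_sin_sub_sin_le (p.eval t) (Real.arcsin t)).trans (hp t (abs_le.1 ht)).le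
  rwa [Real.sin_arcsin (by linarith [(abs_le.1 ht).1]) (by linarith [(abs_le.1 ht).2])] at h1

theorem exists_approximant {T : ι → Hil (Fin m) →L[ℂ] Hil (Fin m)} (hT : Basis T) (j : Fin m)
    {δ : ℝ} (hδ : 0 < δ) (hδ1 : δ ≤ 1) :
    ∃ P : FreeAlgebra ℂ ι, SA P ∧ ‖FreeAlgebra.lift ℂ T P‖ ≤ 10 ∧
      ‖FreeAlgebra.lift ℂ (inlT ι m) P‖ ≤ 10 ∧
      ‖(FreeAlgebra.lift ℂ T P - ls j) (bas [])‖ ≤ 15 * δ := by
  obtain ⟨p, hp⟩ := exists_arcsin_poly δ hδ
  set u : Hil (Fin m) →L[ℂ] Hil (Fin m) := ((1 / 5 : ℝ) : ℂ) • ls j with hu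
  have hus : IsSelfAdjoint u := by
    rw [IsSelfAdjoint, hu, star_smul, star_ls, Complex.star_def, Complex.conj_ofReal]
  have hun : ‖u‖ ≤ 1 / 2 := by
    rw [hu, norm_smul]
    have := norm_ls_le (ι := Fin m) j
    simp only [Complex.norm_real, Real.norm_eq_abs]
    norm_num
    linarith
  obtain ⟨Q, hQ, hQc⟩ := hT.gen j p (1 / 5) δ hδ
  rw [← hu] at hQc
  set R := max ‖FreeAlgebra.lift ℂ T Q‖ ‖FreeAlgebra.lift ℂ (inlT ι m) Q‖ with hR
  obtain ⟨q, hq⟩ := exists_sine_poly R δ hδ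
  have hQT : IsSelfAdjoint (FreeAlgebra.lift ℂ T Q) := hQ _ T hT.sa
  have hQI : IsSelfAdjoint (FreeAlgebra.lift ℂ (inlT ι m) Q) := hQ _ _ fun i => star_ls _
  have h5 : ∀ {κ : Type} (Y : Hil κ →L[ℂ] Hil κ), ‖((5 : ℝ) : ℂ) • Y‖ = 5 * ‖Y‖ := fun Y => by
    rw [norm_smul]; simp
  have hb : ∀ {κ : Type} [DecidableEq κ] (Y : Hil κ →L[ℂ] Hil κ), IsSelfAdjoint Y → ‖Y‖ ≤ R →
      ‖ev q Y‖ ≤ 2 := by
    intro κ _ Y hY hn
    rw [ev_eq_cfc hY]
    refine norm_cfc_le zero_le_two fun t ht => ?_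
    have h1 := hq t ((abs_le_norm_of_mem ht).trans hn)
    rw [Real.norm_eq_abs]
    have h2 := abs_le.1 h1
    have h3 := abs_le.1 (Real.abs_sin_le_one t)
    exact abs_le.2 ⟨by linarith, by linarith⟩
  refine ⟨((5 : ℝ) : ℂ) • ev q Q, ?_, ?_, ?_, ?_⟩
  · intro A _ _ _ _ x hx
    rw [map_smul, map_ev, IsSelfAdjoint, star_smul, (isSelfAdjoint_ev q (hQ A x hx)).star_eq,
      Complex.star_def, Complex.conj_ofReal]
  · rw [map_smul, map_ev, h5]
    linarith [hb _ hQT (le_max_left _ _)]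
  · rw [map_smul, map_ev, h5]
    linarith [hb _ hQI (le_max_right _ _)]
  · set X := FreeAlgebra.lift ℂ T Q with hX
    set B := ev p u with hB
    have hBs : IsSelfAdjoint B := isSelfAdjoint_ev p hus
    have hua : u ∈ alg (Fin m) := by
      rw [hu]; exact (alg (Fin m)).toStarSubalgebra.smul_mem (ls_mem j) _
    have hBa : B ∈ alg (Fin m) := by
      have : B ∈ (alg (Fin m)).toStarSubalgebra.toSubalgebra := by
        rw [hB, ev]
        exact Algebra.adjoin_le (Set.singleton_subset_iff.2 hua)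
          (Polynomial.aeval_mem_adjoin_singleton ℂ u)
      exact this
    have e : ((5 : ℝ) : ℂ) • ev q X - ls j = ((5 : ℝ) : ℂ) • (ev q X - u) := by
      rw [smul_sub, hu, smul_smul, ← Complex.ofReal_mul]
      norm_num
    rw [map_smul, map_ev, ← hX, e, _root_.smul_apply, norm_smul, Complex.norm_real,
      Real.norm_eq_abs, abs_of_pos (by norm_num : (0 : ℝ) < 5)]
    have h1 : ‖ev q X - cfc Real.sin X‖ ≤ δ := by
      rw [ev_eq_cfc hQT, ← cfc_sub _ _ X q.continuous.continuousOn Real.continuous_sin.continuousOn]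
      refine norm_cfc_le hδ.le fun t ht => ?_
      rw [Real.norm_eq_abs]
      exact hq t ((abs_le_norm_of_mem ht).trans (le_max_left _ _))
    have h3 : ‖cfc Real.sin B - u‖ ≤ δ := by
      rw [hB, ev_eq_cfc hus, ← cfc_comp Real.sin p.eval u hus
        Real.continuous_sin.continuousOn p.continuous.continuousOn]
      conv_lhs => arg 1; arg 2; rw [← cfc_id ℝ u hus]
      rw [← cfc_sub (Real.sin ∘ p.eval) id u
        (Real.continuous_sin.comp p.continuous).continuousOn continuousOn_id]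
      refine norm_cfc_le hδ.le fun t ht => ?_
      rw [Real.norm_eq_abs]
      exact hp t ((abs_le_norm_of_mem ht).trans hun)
    have h2 := norm_sin_sub_apply_le (lift_mem_alg hT.mem Q) hBa hQT hBs
    rw [← hX] at h2
    have e2 : ev q X - u = (ev q X - cfc Real.sin X) + (cfc Real.sin X - cfc Real.sin B) +
        (cfc Real.sin B - u) := by abel
    rw [e2, _root_.add_apply, _root_.add_apply]
    have h4 := norm_add₃_le (a := (ev q X - cfc Real.sin X) (bas []))
      (b := (cfc Real.sin X - cfc Real.sin B) (bas [])) (c := (cfc Real.sin B - u) (bas []))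
    have h5' := (norm_apply_le (ev q X - cfc Real.sin X)).trans h1
    have h6 := (norm_apply_le (cfc Real.sin B - u)).trans h3
    nlinarith

/-- Bounded convergence in the vector norm. -/
def Cv {κ : Type} [DecidableEq κ] (X : ℕ → Hil κ →L[ℂ] Hil κ) (Y : Hil κ →L[ℂ] Hil κ) : Prop :=
  (∀ r, X r ∈ alg κ) ∧ Y ∈ alg κ ∧ Bdd X ∧
    Tendsto (fun r => ‖(X r - Y) (bas [])‖) atTop (𝓝 0)

namespace Cv

variable {κ : Type} [DecidableEq κ] {X X' : ℕ → Hil κ →L[ℂ] Hil κ} {Y Y' : Hil κ →L[ℂ] Hil κ}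

theorem const (h : Y ∈ alg κ) : Cv (fun _ => Y) Y :=
  ⟨fun _ => h, h, Bdd.const Y, by simp⟩

theorem mul (h : Cv X Y) (h' : Cv X' Y') : Cv (fun r => X r * X' r) (Y * Y') := by
  obtain ⟨hm, hy, hb, hl⟩ := h
  obtain ⟨hm', hy', hb', hl'⟩ := h'
  refine ⟨fun r => mul_mem (hm r) (hm' r), mul_mem hy hy', hb.mul hb', ?_⟩
  obtain ⟨C, hC, hCb⟩ := hb
  have hlim : Tendsto (fun r => C * ‖(X' r - Y') (bas [])‖ + ‖Y'‖ * ‖(X r - Y) (bas [])‖) atTop
      (𝓝 0) := by simpa using (hl'.const_mul C).add (hl.const_mul ‖Y'‖)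
  refine squeeze_zero (fun r => norm_nonneg _) (fun r => ?_) hlim
  have e : X r * X' r - Y * Y' = X r * (X' r - Y') + (X r - Y) * Y' := by noncomm_ring
  rw [e, _root_.add_apply]
  refine (norm_add_le _ _).trans (add_le_add ?_ (norm_mul_apply_le (sub_mem (hm r) hy) hy'))
  rw [mul_apply_eq_comp]
  exact ((X r).le_opNorm _).trans (mul_le_mul_of_nonneg_right (hCb r) (norm_nonneg _))

theorem sub (h : Cv X Y) (h' : Cv X' Y') : Cv (fun r => X r - X' r) (Y - Y') := by
  obtain ⟨hm, hy, hb, hl⟩ := h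
  obtain ⟨hm', hy', hb', hl'⟩ := h'
  refine ⟨fun r => sub_mem (hm r) (hm' r), sub_mem hy hy', hb.sub hb', ?_⟩
  refine squeeze_zero (fun r => norm_nonneg _) (fun r => ?_) (by simpa using hl.add hl')
  have e : X r - X' r - (Y - Y') = (X r - Y) - (X' r - Y') := by abel
  rw [e, _root_.sub_apply]
  exact norm_sub_le _ _

theorem wick {K : Type} [DecidableEq K] {s : ℕ → K → Hil κ →L[ℂ] Hil κ}
    {t : K → Hil κ →L[ℂ] Hil κ} (h : ∀ a, Cv (fun r => s r a) (t a)) :
    ∀ w : List K, Cv (fun r => wickOf (s r) w) (wickOf t w)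
  | [] => Cv.const (one_mem _)
  | [a] => h a
  | a :: b :: w => by
      simp only [wickOf]
      refine ((h a).mul (wick h (b :: w))).sub ?_
      split_ifs
      · exact wick h w
      · exact Cv.const (zero_mem _)

theorem tendsto_tr (h : Cv X Y) : Tendsto (fun r => tr κ (X r)) atTop (𝓝 (tr κ Y)) := by
  rw [tendsto_iff_norm_sub_tendsto_zero]
  refine squeeze_zero (fun r => norm_nonneg _) (fun r => ?_) h.2.2.2
  rw [← map_sub]
  exact norm_tr_le _

end Cv

/-- Bounded self-adjoint polynomials in `T` converging to the generators. -/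
theorem exists_approximants {T : ι → Hil (Fin m) →L[ℂ] Hil (Fin m)} (hT : Basis T) :
    ∃ P : ℕ → Fin m → FreeAlgebra ℂ ι, (∀ r a, SA (P r a)) ∧
      (∀ a, Cv (fun r => FreeAlgebra.lift ℂ T (P r a)) (ls a)) ∧
      ∀ a, Bdd fun r => FreeAlgebra.lift ℂ (inlT ι m) (P r a) := by
  have hpos : ∀ r : ℕ, 0 < 1 / ((r : ℝ) + 1) := fun r => by positivity
  have hle : ∀ r : ℕ, 1 / ((r : ℝ) + 1) ≤ 1 := fun r => by
    rw [div_le_one (by positivity)]; simp
  choose P hs h1 h2 h3 using fun (r : ℕ) (a : Fin m) => exists_approximant hT a (hpos r) (hle r)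
  refine ⟨P, hs, fun a => ⟨fun r => lift_mem_alg hT.mem _, ls_mem a, ⟨10, by norm_num,
    fun r => h1 r a⟩, ?_⟩, fun a => ⟨10, by norm_num, fun r => h2 r a⟩⟩
  exact squeeze_zero (fun r => norm_nonneg _) (fun r => h3 r a)
    (by simpa using (tendsto_one_div_add_atTop_nhds_zero_nat (𝕜 := ℝ)).const_mul (15 : ℝ))

end

end Vale.Agent.P086
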