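import Mathlib

/-!
# P086: the free group factor in the semicircular picture

A model of rank `ι` is a Hilbert space with an orthonormal basis indexed by the words in the
alphabet `ι` (a full Fock space, the vacuum being the empty word) and the semicircular operators
`S i = l_i + l_i*` on it. Their bicommutant is the free group factor of rank `|ι|`, with the vacuum
state as trace.
-/

open scoped InnerProductSpace

namespace Vale.Agent.P086

noncomputable section

/-- A model: a Hilbert space, an orthonormal basis `e_w` indexed by words, and operators `S i` with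
`S i e_w = e_{iw}`, plus `e_v` when `w = iv`. -/
structure Model (ι : Type) [DecidableEq ι] : Type 1 where
  /-- The Hilbert space. -/
  Space : Type
  [grp : NormedAddCommGroup Space]
  [ips : InnerProductSpace ℂ Space]
  [cpl : CompleteSpace Space]
  /-- The basis. -/
  e : HilbertBasis (List ι) ℂ Space
  /-- The semicircular operators. -/
  S : ι → Space →L[ℂ] Space
  rule : ∀ (i : ι) (w : List ι), S i (e w) = e (i :: w) + if w.head? = some i then e w.tail else 0

attribute [instance] Model.grp Model.ips Model.cpl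

namespace Model

variable {ι : Type} [DecidableEq ι]

/-- The operators on the space of a model. -/
abbrev Op (A : Model ι) : Type := A.Space →L[ℂ] A.Space

/-- Membership in the bicommutant of the semicircular operators. -/
def InAlg (A : Model ι) (X : A.Op) : Prop :=
  ∀ Y : A.Op, (∀ i, Y * A.S i = A.S i * Y) → X * Y = Y * X

/-- The vacuum state. -/
def tau (A : Model ι) (X : A.Op) : ℂ := ⟪A.e [], X (A.e [])⟫_ℂ

/-- The coefficient of `X Ω` at the word `w`. -/
def coef (A : Model ι) (X : A.Op) (w : List ι) : ℂ := ⟪A.e w, X (A.e [])⟫_ℂ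

/-- `∑_w |w|^s |c_w|²` is finite for the coefficients `c_w` of `X Ω`. -/
def InSobolev (A : Model ι) (s : ℝ) (X : A.Op) : Prop :=
  Summable fun w : List ι => (w.length : ℝ) ^ s * ‖A.coef X w‖ ^ 2

end Model

variable {ι κ : Type} [DecidableEq ι] [DecidableEq κ]

/-- A map restricting to a trace-preserving `*`-isomorphism of the two algebras. -/
def IsTraceIso (A : Model ι) (B : Model κ) (ψ : A.Op → B.Op) : Prop :=
  (∀ X, A.InAlg X → B.InAlg (ψ X)) ∧
    (∀ X Y, A.InAlg X → A.InAlg Y → ψ X = ψ Y → X = Y) ∧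
    (∀ Z, B.InAlg Z → ∃ X, A.InAlg X ∧ ψ X = Z) ∧
    (∀ X Y, A.InAlg X → A.InAlg Y → ψ (X + Y) = ψ X + ψ Y) ∧
    (∀ X Y, A.InAlg X → A.InAlg Y → ψ (X * Y) = ψ X * ψ Y) ∧
    (∀ (c : ℂ) X, A.InAlg X → ψ (c • X) = c • ψ X) ∧
    (∀ X, A.InAlg X → ψ (star X) = star (ψ X)) ∧
    (∀ X, A.InAlg X → B.tau (ψ X) = A.tau X)

/-- The exponents of Sobolev regular images of the generators add up to at most `m`, and only
finitely many images lie in a given Sobolev class. -/
def ExponentBound (m : ℕ) (A : Model ι) (B : Model κ) (ψ : A.Op → B.Op) : Prop :=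
  (∀ (s : ι → ℝ) (F : Finset ι),
    (∀ i ∈ F, 0 ≤ s i ∧ s i ≤ 1 ∧ B.InSobolev (s i) (ψ (A.S i))) → ∑ i ∈ F, s i ≤ m) ∧
    ∀ σ : ℝ, 0 < σ → σ ≤ 1 → {i : ι | B.InSobolev σ (ψ (A.S i))}.Finite

/-- Rigidity for a fixed rank and a fixed index set. -/
def Rigidity (m : ℕ) (ι : Type) [DecidableEq ι] : Prop :=
  ∀ (A : Model ι) (B : Model (Fin m)) (ψ : A.Op → B.Op),
    IsTraceIso A B ψ → ExponentBound m A B ψ

/-- A model exists; its generators lie in its algebra and have finite `1`-norm. -/
def ModelExists (ι : Type) [DecidableEq ι] : Prop :=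
  ∃ A : Model ι, (∀ i, A.InAlg (A.S i)) ∧ ∀ i, A.InSobolev 1 (A.S i)

end

end Vale.Agent.P086
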