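import Vale.Agent.P086.Approx

/-!
# P086: the error of the decoder in the free model

`z = c x + d g` with `g` free from the second basis. The truncated expansion of a member of the
second basis, evaluated at `z`, recovers it up to `O(d^s)` in the vector norm.
-/

open Filter
open scoped InnerProductSpace Topology

namespace Vale.Agent.P086

open Vale.Agent.P087 Vale.Agent.P087.Realisation

noncomputable section

variable {ι : Type} [DecidableEq ι] {m : ℕ}

/-- The rotated variables as polynomials. -/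
def Zp (P : Fin m → FreeAlgebra ℂ ι) (c d : ℝ) (a : Fin m) : FreeAlgebra ℂ (ι ⊕ Fin m) :=
  (c : ℂ) • FreeAlgebra.lift ℂ (fun i => FreeAlgebra.ι ℂ (Sum.inl i)) (P a) +
    (d : ℂ) • FreeAlgebra.ι ℂ (Sum.inr a)

theorem lift_lift {J K A : Type} [Ring A] [Algebra ℂ A] (x : K → A)
    (f : J → FreeAlgebra ℂ K) (p : FreeAlgebra ℂ J) :
    FreeAlgebra.lift ℂ x (FreeAlgebra.lift ℂ f p) =
      FreeAlgebra.lift ℂ (fun j => FreeAlgebra.lift ℂ x (f j)) p := by
  have : (FreeAlgebra.lift ℂ x).comp (FreeAlgebra.lift ℂ f) =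
      FreeAlgebra.lift ℂ (fun j => FreeAlgebra.lift ℂ x (f j)) := by
    ext j
    simp
  exact AlgHom.congr_fun this p

omit [DecidableEq ι] in
theorem lift_Zp {A : Type} [Ring A] [Algebra ℂ A] (y : ι ⊕ Fin m → A)
    (P : Fin m → FreeAlgebra ℂ ι) (c d : ℝ) (a : Fin m) :
    FreeAlgebra.lift ℂ y (Zp P c d a) =
      (c : ℂ) • FreeAlgebra.lift ℂ (fun i => y (Sum.inl i)) (P a) + (d : ℂ) • y (Sum.inr a) := by
  rw [Zp, map_add, map_smul, map_smul, lift_lift]
  simp only [FreeAlgebra.lift_ι_apply]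

theorem SA_Zp {P : Fin m → FreeAlgebra ℂ ι} (hP : ∀ a, SA (P a)) (c d : ℝ) (a : Fin m) :
    SA (Zp P c d a) := by
  intro A _ _ _ _ x hx
  rw [lift_Zp]
  refine IsSelfAdjoint.add ?_ ?_
  · rw [IsSelfAdjoint, star_smul, (hP a A _ fun i => hx _).star_eq, Complex.star_def,
      Complex.conj_ofReal]
  · rw [IsSelfAdjoint, star_smul, hx, Complex.star_def, Complex.conj_ofReal]

theorem wick_mem_alg {κ K : Type} [DecidableEq κ] [DecidableEq K] {x : K → Hil κ →L[ℂ] Hil κ}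
    (h : ∀ a, x a ∈ alg κ) (w : List K) : wickOf x w ∈ alg κ := by
  rw [← lift_wick_ι x w]
  exact lift_mem_alg h _

variable {T : ι → Hil (Fin m) →L[ℂ] Hil (Fin m)} {P : ℕ → Fin m → FreeAlgebra ℂ ι}

/-- The left sequence in the free model. -/
def xseq (P : ℕ → Fin m → FreeAlgebra ℂ ι) (r : ℕ) (a : Fin m) :
    Hil (ι ⊕ Fin m) →L[ℂ] Hil (ι ⊕ Fin m) := FreeAlgebra.lift ℂ (inlT ι m) (P r a)

theorem tr_inlT (hT : Basis T) (p : FreeAlgebra ℂ ι) :
    tr (ι ⊕ Fin m) (FreeAlgebra.lift ℂ (inlT ι m) p) = tr (Fin m) (FreeAlgebra.lift ℂ T p) := by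
  rw [hT.moments]
  exact tr_lift_relabel Sum.inl Sum.inl_injective p

theorem good_xseq (hT : Basis T)
    (hP : ∀ a, Cv (fun r => FreeAlgebra.lift ℂ T (P r a)) (ls a))
    (hPb : ∀ a, Bdd fun r => FreeAlgebra.lift ℂ (inlT ι m) (P r a)) : Good (xseq P) := by
  refine ⟨fun r a => ?_, hPb, fun v => ?_⟩
  · refine Algebra.adjoin_mono ?_ (lift_mem_adjoin (inlT ι m) (P r a))
    rintro _ ⟨i, rfl⟩
    exact ⟨_, ⟨i, rfl⟩, rfl⟩
  · have e : ∀ r, tr (ι ⊕ Fin m) (wickOf (xseq P r) v) =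
        tr (Fin m) (wickOf (fun a => FreeAlgebra.lift ℂ T (P r a)) v) := fun r => by
      rw [← lift_wick T (P r) v, ← tr_inlT hT, lift_wick]
      rfl
    simp only [e]
    simpa only [tr_wick_ls] using (Cv.wick hP v).tendsto_tr

/-- The rotated variables in the free model. -/
def zseq (P : ℕ → Fin m → FreeAlgebra ℂ ι) (c d : ℝ) (r : ℕ) (a : Fin m) :
    Hil (ι ⊕ Fin m) →L[ℂ] Hil (ι ⊕ Fin m) :=
  FreeAlgebra.lift ℂ (ls : ι ⊕ Fin m → _) (Zp (P r) c d a)

theorem wick_zseq (c d : ℝ) (hcd : c ^ 2 + d ^ 2 = 1) (r : ℕ) (w : List (Fin m)) :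
    wickOf (zseq P c d r) w = cs (c : ℂ) (d : ℂ) w (wickOf (mixed (xseq P) r)) := by
  have e : zseq P c d r = fun a => (c : ℂ) • xseq P r a + (d : ℂ) • ls (Sum.inr a) := by
    funext a
    exact lift_Zp _ _ _ _ _
  rw [e]
  exact wick_rotate _ _ _ _ (by exact_mod_cast (by linarith : c * c + d * d = 1)) w

theorem tendsto_wick_zseq (hx : Good (xseq P)) (c d : ℝ) (hcd : c ^ 2 + d ^ 2 = 1)
    (w : List (Fin m)) :
    Tendsto (fun r => tr (ι ⊕ Fin m) (wickOf (zseq P c d r) w)) atTop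
      (𝓝 (if w = [] then 1 else 0)) := by
  simp only [wick_zseq c d hcd, cs_map]
  have h := tendsto_cs (c : ℂ) (d : ℂ) w _ _ fun u => tendsto_mixed hx u
  rw [cs_supported_inl (c : ℂ) (d : ℂ) w _ (fun v => if v = [] then 1 else 0)
    (fun v => by simp) (fun u hu => if_neg (by rintro rfl; simp at hu))] at h
  rcases w with _ | ⟨a, w⟩ <;> simpa using h

theorem tendsto_cross (hT : Basis T)
    (hP : ∀ a, Cv (fun r => FreeAlgebra.lift ℂ T (P r a)) (ls a))
    (hx : Good (xseq P)) (c d : ℝ) (hcd : c ^ 2 + d ^ 2 = 1) (i : ι) (w : List (Fin m)) :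
    Tendsto (fun r => tr (ι ⊕ Fin m) (ls (Sum.inl i) * wickOf (zseq P c d r) w)) atTop
      (𝓝 ((c : ℂ) ^ w.length * starRingEnd ℂ (T i (bas []) w))) := by
  have hl : ∀ (A : Hil (ι ⊕ Fin m) →L[ℂ] Hil (ι ⊕ Fin m)) (r : ℕ),
      tr (ι ⊕ Fin m) (A * cs (c : ℂ) (d : ℂ) w (wickOf (mixed (xseq P) r))) =
        cs (c : ℂ) (d : ℂ) w (fun u => tr (ι ⊕ Fin m) (A * wickOf (mixed (xseq P) r) u)) :=
    fun A r => cs_map _ _ ((tr (ι ⊕ Fin m)).comp (LinearMap.mulLeft ℂ A)) w _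
  simp only [wick_zseq c d hcd, hl]
  have hG : ∀ u : List (Fin m ⊕ Fin m),
      Tendsto (fun r => tr (ι ⊕ Fin m) (ls (Sum.inl i) * wickOf (mixed (xseq P) r) u)) atTop
        (𝓝 (if ∃ e ∈ u, e.isRight = true then 0
          else starRingEnd ℂ (T i (bas []) (u.map (Sum.elim id id))))) := by
    intro u
    by_cases hu : ∃ e ∈ u, e.isRight = true
    · rw [if_pos hu]
      exact tendsto_left_mul_mixed hx (fun _ => ls_inl_mem i) (Bdd.const _) hu
    · rw [if_neg hu]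
      obtain ⟨v, rfl⟩ := exists_map_inl u fun e he => by
        cases e with
        | inl a => rfl
        | inr a => exact absurd ⟨_, he, rfl⟩ hu
      have e : ∀ r, tr (ι ⊕ Fin m) (ls (Sum.inl i) * wickOf (mixed (xseq P) r) (v.map Sum.inl)) =
          tr (Fin m) (T i * wickOf (fun a => FreeAlgebra.lift ℂ T (P r a)) v) := fun r => by
        have h := tr_inlT hT (FreeAlgebra.ι ℂ i * wickOf (P r) v)
        rw [map_mul (FreeAlgebra.lift ℂ (inlT ι m)), map_mul (FreeAlgebra.lift ℂ T), lift_wick,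
          lift_wick] at h
        simp only [FreeAlgebra.lift_ι_apply] at h
        rw [mixed_map_inl]
        exact h
      simp only [e, List.map_map]
      have h := ((Cv.const (hT.mem i)).mul (Cv.wick hP v)).tendsto_tr
      have hv : v.map (Sum.elim id id ∘ Sum.inl) = v := by simp
      rw [hv, ← inner_bas_right v (T i (bas [])), ← wick_ls_bas v, ← tr_star_mul, hT.sa]
      exact h
  have h := tendsto_cs (c : ℂ) (d : ℂ) w _ _ hG
  rw [cs_supported_inl (c : ℂ) (d : ℂ) w _ (fun v => starRingEnd ℂ (T i (bas []) v))] at h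
  · exact h
  · intro v
    rw [if_neg (by simp)]
    simp
  · exact fun u hu => if_pos hu

/-- The error of the decoder in the free model tends to the truncation error plus the damping. -/
theorem tendsto_error (hT : Basis T)
    (hP : ∀ a, Cv (fun r => FreeAlgebra.lift ℂ T (P r a)) (ls a))
    (hx : Good (xseq P)) (c d : ℝ) (hcd : c ^ 2 + d ^ 2 = 1) (i : ι) (W : Finset (List (Fin m)))
    (hW : ∀ w ∈ W, w.reverse ∈ W) :
    Tendsto (fun r => tr (ι ⊕ Fin m)
        ((ls (Sum.inl i) - wpoly (zseq P c d r) W (fun w => T i (bas []) w)) *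
          (ls (Sum.inl i) - wpoly (zseq P c d r) W (fun w => T i (bas []) w)))) atTop
      (𝓝 ((1 + ∑ w ∈ W, ‖T i (bas []) w‖ ^ 2 -
        2 * ∑ w ∈ W, c ^ w.length * ‖T i (bas []) w‖ ^ 2 : ℝ) : ℂ)) := by
  set t : List (Fin m) → ℂ := fun w => T i (bas []) w with ht
  set L : Hil (ι ⊕ Fin m) →L[ℂ] Hil (ι ⊕ Fin m) := ls (Sum.inl i) with hL
  have hzmem : ∀ r a, zseq P c d r a ∈ alg (ι ⊕ Fin m) := fun r a =>
    lift_mem_alg (fun e => ls_mem e) _
  have hsq : tr (ι ⊕ Fin m) (L * L) = 1 := by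
    have h := tr_star_mul (ι := ι ⊕ Fin m) L L
    rw [hL, star_ls] at h
    have hb : ls (Sum.inl i) (bas []) = (bas [Sum.inl i] : Hil (ι ⊕ Fin m)) := by
      simpa [wickOf] using wick_ls_bas ([Sum.inl i] : List (ι ⊕ Fin m))
    rw [hL, h, hb, inner_bas_left, bas_apply, if_pos rfl]
  have e : ∀ r, tr (ι ⊕ Fin m) ((L - wpoly (zseq P c d r) W t) * (L - wpoly (zseq P c d r) W t)) =
      1 - 2 * ∑ w ∈ W, t w * tr (ι ⊕ Fin m) (L * wickOf (zseq P c d r) w) +
        ∑ u ∈ W, ∑ v ∈ W, t u * (t v *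
          tr (ι ⊕ Fin m) (wickOf (zseq P c d r) u * wickOf (zseq P c d r) v)) := by
    intro r
    have hf : wpoly (zseq P c d r) W t ∈ alg (ι ⊕ Fin m) := by
      refine sum_mem fun w _ => (alg (ι ⊕ Fin m)).toStarSubalgebra.smul_mem ?_ _
      exact wick_mem_alg (hzmem r) w
    have h1 : tr (ι ⊕ Fin m) (L * wpoly (zseq P c d r) W t) =
        ∑ w ∈ W, t w * tr (ι ⊕ Fin m) (L * wickOf (zseq P c d r) w) := by
      simp [wpoly, Finset.mul_sum]
    have h2 : tr (ι ⊕ Fin m) (wpoly (zseq P c d r) W t * wpoly (zseq P c d r) W t) =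
        ∑ u ∈ W, ∑ v ∈ W, t u * (t v *
          tr (ι ⊕ Fin m) (wickOf (zseq P c d r) u * wickOf (zseq P c d r) v)) := by
      simp [wpoly, Finset.sum_mul_sum]
      exact Finset.sum_congr rfl fun u _ => Finset.sum_congr rfl fun v _ => by ring
    rw [sub_mul, mul_sub, mul_sub, map_sub, map_sub, map_sub, hsq,
      tr_comm hf (ls_mem _ : L ∈ alg (ι ⊕ Fin m)), h1, h2]
    ring
  simp only [e]
  have hlim := ((tendsto_finsetSum W fun w _ =>
      (tendsto_cross hT hP hx c d hcd i w).const_mul (t w)).const_mul (2 : ℂ)).const_sub 1 |>.add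
    (tendsto_finsetSum W fun u _ => tendsto_finsetSum W fun v _ =>
      ((tendsto_wick_pair (tr (ι ⊕ Fin m)) (zseq P c d) (tendsto_wick_zseq hx c d hcd)
        u.reverse v).const_mul (t v)).const_mul (t u))
  simp only [List.reverse_reverse] at hlim
  convert hlim using 2
  have hrev : ∀ u ∈ W, ∑ v ∈ W, t u * (t v * if u.reverse = v then 1 else 0) =
      t u * starRingEnd ℂ (t u) := by
    intro u hu
    simp only [mul_ite, mul_one, mul_zero, Finset.sum_ite_eq, if_pos (hW u hu)]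
    rw [ht]
    simp only [coord_rev (hT.mem i) (hT.sa i) u]
  rw [Finset.sum_congr rfl hrev]
  have hterm : ∀ w : List (Fin m), t w * ((c : ℂ) ^ w.length * starRingEnd ℂ (t w)) =
      ((c ^ w.length * ‖t w‖ ^ 2 : ℝ) : ℂ) := fun w => by
    rw [mul_left_comm, Complex.mul_conj']
    push_cast
    ring
  rw [Finset.sum_congr rfl fun w _ => hterm w,
    Finset.sum_congr rfl fun u _ => Complex.mul_conj' (t u)]
  push_cast
  ring

/-- The damping bound `1 - c^k ≤ (k σ²)^s`. -/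
theorem damping_le {σ s : ℝ} (hσ : 0 ≤ σ) (hσ1 : σ ≤ 1) (hs0 : 0 ≤ s) (hs1 : s ≤ 1) (k : ℕ) :
    1 - Real.sqrt (1 - σ ^ 2) ^ k ≤ σ ^ (2 * s) * (k : ℝ) ^ s := by
  set c := Real.sqrt (1 - σ ^ 2) with hc
  have h1 : 0 ≤ 1 - σ ^ 2 := by nlinarith
  have hc0 : 0 ≤ c := Real.sqrt_nonneg _
  have hc1 : c ≤ 1 := by
    rw [hc, Real.sqrt_le_one]
    nlinarith
  have hcc : 1 - σ ^ 2 ≤ c := by
    have := Real.mul_self_sqrt h1
    rw [← hc] at this
    nlinarith
  rcases Nat.eq_zero_or_pos k with rfl | hk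
  · simp only [pow_zero, sub_self]
    positivity
  have hlin : 1 - c ^ k ≤ k * σ ^ 2 := by
    have h := one_add_mul_le_pow (a := c - 1) (by linarith) k
    rw [show (1 : ℝ) + (c - 1) = c by ring] at h
    have hk0 : (0 : ℝ) ≤ k := Nat.cast_nonneg k
    nlinarith
  have hone : 1 - c ^ k ≤ 1 := by linarith [pow_nonneg hc0 k]
  have hx0 : 0 ≤ (k : ℝ) * σ ^ 2 := by positivity
  have e : σ ^ (2 * s) * (k : ℝ) ^ s = ((k : ℝ) * σ ^ 2) ^ s := by
    rw [Real.mul_rpow (Nat.cast_nonneg k) (sq_nonneg σ), Real.rpow_mul hσ, Real.rpow_two, mul_comm]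
  rw [e]
  rcases le_or_gt ((k : ℝ) * σ ^ 2) 1 with h | h
  · exact hlin.trans (Real.self_le_rpow_of_le_one hx0 h hs1)
  · exact hone.trans (Real.one_le_rpow h.le hs0)

/-- For every small `σ` there is a symmetric truncation with error `≤ (1 + 2K) σ^{2s}`. -/
theorem exists_truncation (hT : Basis T) (i : ι) {s : ℝ} (hs0 : 0 ≤ s) (hs1 : s ≤ 1)
    (hsum : Summable fun w : List (Fin m) => (w.length : ℝ) ^ s * ‖T i (bas []) w‖ ^ 2)
    {σ : ℝ} (hσ : 0 < σ) (hσ1 : σ ≤ 1) :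
    ∃ W : Finset (List (Fin m)), (∀ w ∈ W, w.reverse ∈ W) ∧
      1 + ∑ w ∈ W, ‖T i (bas []) w‖ ^ 2 -
          2 * ∑ w ∈ W, Real.sqrt (1 - σ ^ 2) ^ w.length * ‖T i (bas []) w‖ ^ 2 ≤
        (1 + 2 * ∑' w : List (Fin m), (w.length : ℝ) ^ s * ‖T i (bas []) w‖ ^ 2) * σ ^ (2 * s) := by
  obtain ⟨W, -, hW, hclose⟩ := exists_wpoly_close (B := T i) ∅ hσ
  refine ⟨W, hW, ?_⟩
  set x : Hil (Fin m) := T i (bas []) with hx
  set t : List (Fin m) → ℂ := fun w => x w with ht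
  have hnorm : ‖x‖ ^ 2 = 1 := by
    have h1 := hT.moments (FreeAlgebra.ι ℂ i * FreeAlgebra.ι ℂ i)
    rw [map_mul (FreeAlgebra.lift ℂ T), map_mul (FreeAlgebra.lift ℂ (ls : ι → _)),
      FreeAlgebra.lift_ι_apply, FreeAlgebra.lift_ι_apply] at h1
    have h2 := tr_star_mul_self (T i)
    rw [hT.sa, h1] at h2
    have h3 := tr_star_mul (ι := ι) (ls i) (ls i)
    rw [star_ls] at h3
    have hb : ls i (bas []) = (bas [i] : Hil ι) := by
      simpa [wickOf] using wick_ls_bas ([i] : List ι)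
    rw [h3, hb, inner_bas_left, bas_apply, if_pos rfl] at h2
    exact_mod_cast h2.symm
  have hpy : ‖(∑ w ∈ W, t w • bas w) - x‖ ^ 2 = 1 - ∑ w ∈ W, ‖t w‖ ^ 2 := by
    have hip : ⟪∑ w ∈ W, t w • bas w, x⟫_ℂ = ((∑ w ∈ W, ‖t w‖ ^ 2 : ℝ) : ℂ) := by
      rw [sum_inner]
      push_cast
      refine Finset.sum_congr rfl fun w _ => ?_
      rw [inner_smul_left, inner_bas_left]
      exact Complex.conj_mul' (t w)
    have hnn : ⟪∑ w ∈ W, t w • bas w, ∑ w ∈ W, t w • bas w⟫_ℂ =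
        ((∑ w ∈ W, ‖t w‖ ^ 2 : ℝ) : ℂ) := by
      rw [bas_orthonormal.inner_sum]
      push_cast
      exact Finset.sum_congr rfl fun w _ => Complex.conj_mul' (t w)
    rw [inner_self_eq_norm_sq_to_K] at hnn
    have hnn' : ‖∑ w ∈ W, t w • (bas w : Hil (Fin m))‖ ^ 2 = ∑ w ∈ W, ‖t w‖ ^ 2 := by
      have := congrArg Complex.re hnn
      simpa [← Complex.ofReal_pow, ← Complex.ofReal_sum] using this
    rw [norm_sub_sq (𝕜 := ℂ), hip, hnn', hnorm]
    simp only [RCLike.re_to_complex, Complex.ofReal_re]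
    ring
  have hd : 1 - ∑ w ∈ W, ‖t w‖ ^ 2 ≤ σ ^ 2 := by
    rw [← hpy]
    exact pow_le_pow_left₀ (norm_nonneg _) hclose.le 2
  have hd' : σ ^ 2 ≤ σ ^ (2 * s) := by
    rw [← Real.rpow_natCast σ 2]
    exact Real.rpow_le_rpow_of_exponent_ge hσ hσ1 (by push_cast; linarith)
  have hdamp : ∑ w ∈ W, (1 - Real.sqrt (1 - σ ^ 2) ^ w.length) * ‖t w‖ ^ 2 ≤
      σ ^ (2 * s) * ∑' w : List (Fin m), (w.length : ℝ) ^ s * ‖t w‖ ^ 2 := by
    refine le_trans (Finset.sum_le_sum fun w _ =>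
      mul_le_mul_of_nonneg_right (damping_le hσ.le hσ1 hs0 hs1 w.length) (sq_nonneg _)) ?_
    simp only [mul_assoc]
    rw [← Finset.mul_sum]
    exact mul_le_mul_of_nonneg_left
      (hsum.sum_le_tsum W fun w _ => mul_nonneg (Real.rpow_nonneg (Nat.cast_nonneg _) _) (sq_nonneg _))
      (Real.rpow_nonneg hσ.le _)
  simp only [sub_mul, one_mul, Finset.sum_sub_distrib] at hdamp
  nlinarith

end

end Vale.Agent.P086
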