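import Vale.Agent.P087.Realisation
import Vale.Agent.P087.Transfer
import Vale.Agent.P087.Lower

/-!
# P086: the free semicircular algebra on Fock space

Elementary facts about the vector trace on the algebra commuting with the right semicircular
operators, moments of relabelled families, and self-adjoint Wick polynomials approximating a
self-adjoint element in the vector norm.
-/

open Filter
open scoped InnerProductSpace Topology

namespace Vale.Agent.P086

open Vale.Agent.P087 Vale.Agent.P087.Realisation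

noncomputable section

set_option linter.unusedSectionVars false

variable {ι : Type} [DecidableEq ι]

variable (ι) in
/-- The vacuum. -/
def vc : Hil ι := bas []

variable (ι) in
/-- The vector trace as a linear map. -/
def tr : (Hil ι →L[ℂ] Hil ι) →ₗ[ℂ] ℂ where
  toFun X := trace (bas []) X
  map_add' X Y := by simp [trace]
  map_smul' c X := by simp [trace]

theorem tr_apply (X : Hil ι →L[ℂ] Hil ι) : tr ι X = trace (bas []) X := rfl

instance : Nontrivial (Hil ι) :=
  ⟨⟨bas [], 0, bas_orthonormal.ne_zero []⟩⟩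

/-- The real functional calculus of self-adjoint operators on Fock space. -/
instance instCFCReal : ContinuousFunctionalCalculus ℝ (Hil ι →L[ℂ] Hil ι) IsSelfAdjoint :=
  IsSelfAdjoint.instContinuousFunctionalCalculus

theorem norm_vc : ‖(bas [] : Hil ι)‖ = 1 := bas_orthonormal.1 []

theorem tr_one : tr ι 1 = 1 := by
  rw [tr_apply, trace, one_apply_eq_self, inner_bas_left, bas_apply]; simp

theorem tr_eq_coord (X : Hil ι →L[ℂ] Hil ι) : tr ι X = X (bas []) [] := by
  simp [tr_apply, trace, inner_bas_left]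

theorem tr_comm {X Y : Hil ι →L[ℂ] Hil ι} (hX : X ∈ alg ι) (hY : Y ∈ alg ι) :
    tr ι (X * Y) = tr ι (Y * X) := trace_comm hX hY

theorem tr_star_mul (X Y : Hil ι →L[ℂ] Hil ι) :
    tr ι (star X * Y) = ⟪X (bas []), Y (bas [])⟫_ℂ := by
  rw [tr_apply, trace, mul_apply_eq_comp, ← star_inner_left, star_star]

theorem tr_star_mul_self (X : Hil ι →L[ℂ] Hil ι) :
    tr ι (star X * X) = ((‖X (bas [])‖ ^ 2 : ℝ) : ℂ) := by
  rw [tr_star_mul, inner_self_eq_norm_sq_to_K]
  simp

theorem norm_tr_le (X : Hil ι →L[ℂ] Hil ι) : ‖tr ι X‖ ≤ ‖X (bas [])‖ := by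
  rw [tr_apply, trace]
  refine (norm_inner_le_norm _ _).trans ?_
  rw [norm_vc, one_mul]

theorem norm_apply_le (X : Hil ι →L[ℂ] Hil ι) : ‖X (bas [])‖ ≤ ‖X‖ := by
  refine (X.le_opNorm _).trans ?_
  rw [norm_vc, mul_one]

theorem norm_star_apply {X : Hil ι →L[ℂ] Hil ι} (hX : X ∈ alg ι) :
    ‖(star X) (bas [])‖ = ‖X (bas [])‖ := by
  have h1 := tr_star_mul_self (star X)
  rw [star_star, tr_comm hX (star_mem hX), tr_star_mul_self, Complex.ofReal_inj] at h1
  exact (sq_eq_sq₀ (norm_nonneg _) (norm_nonneg _)).1 h1.symm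

theorem norm_mul_apply_le {X Y : Hil ι →L[ℂ] Hil ι} (hX : X ∈ alg ι) (hY : Y ∈ alg ι) :
    ‖(X * Y) (bas [])‖ ≤ ‖Y‖ * ‖X (bas [])‖ := by
  rw [← norm_star_apply (mul_mem hX hY), star_mul, mul_apply_eq_comp, ← norm_star_apply hX]
  refine ((star Y).le_opNorm _).trans ?_
  rw [ContinuousLinearMap.star_eq_adjoint, LinearIsometryEquiv.norm_map]

theorem norm_push_le {f : List ι → List ι} (hf : Function.Injective f) : ‖push f hf‖ ≤ 1 :=
  LinearIsometry.norm_toContinuousLinearMap_le _

theorem norm_ls_le (a : ι) : ‖(ls a : Hil ι →L[ℂ] Hil ι)‖ ≤ 2 := by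
  refine (norm_add_le _ _).trans ?_
  rw [ContinuousLinearMap.star_eq_adjoint, LinearIsometryEquiv.norm_map]
  have := norm_push_le (List.cons_injective : Function.Injective (List.cons a))
  unfold lc
  linarith

theorem isSelfAdjoint_ls (a : ι) : IsSelfAdjoint (ls a : Hil ι →L[ℂ] Hil ι) := star_ls a

section Poly

variable {J : Type} {A : Type} [Ring A] [Algebra ℂ A]

theorem lift_mem_alg {x : J → Hil ι →L[ℂ] Hil ι} (h : ∀ a, x a ∈ alg ι) (p : FreeAlgebra ℂ J) :
    FreeAlgebra.lift ℂ x p ∈ alg ι := by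
  induction p using FreeAlgebra.induction with
  | grade0 c =>
    rw [AlgHom.commutes]
    exact (alg ι).toStarSubalgebra.algebraMap_mem c
  | grade1 a => simpa using h a
  | mul p q hp hq => rw [map_mul]; exact mul_mem hp hq
  | add p q hp hq => rw [map_add]; exact add_mem hp hq

theorem lift_mem_adjoin (x : J → A) (p : FreeAlgebra ℂ J) :
    FreeAlgebra.lift ℂ x p ∈ Algebra.adjoin ℂ (Set.range x) := by
  induction p using FreeAlgebra.induction with
  | grade0 c => rw [AlgHom.commutes]; exact Subalgebra.algebraMap_mem _ c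
  | grade1 a => rw [FreeAlgebra.lift_ι_apply]; exact Algebra.subset_adjoin (Set.mem_range_self a)
  | mul p q hp hq => rw [map_mul]; exact mul_mem hp hq
  | add p q hp hq => rw [map_add]; exact add_mem hp hq

theorem map_wick {K B : Type} [DecidableEq K] [Ring B] [Algebra ℂ B] (φ : A →ₐ[ℂ] B) (s : K → A)
    (w : List K) : φ (wickOf s w) = wickOf (fun a => φ (s a)) w :=
  map_wickOf φ.toRingHom s w

theorem lift_wick {K : Type} [DecidableEq K] (x : J → A) (P : K → FreeAlgebra ℂ J) (w : List K) :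
    FreeAlgebra.lift ℂ x (wickOf P w) = wickOf (fun a => FreeAlgebra.lift ℂ x (P a)) w :=
  map_wick _ _ _

theorem lift_wick_ι [DecidableEq J] (x : J → A) (w : List J) :
    FreeAlgebra.lift ℂ x (wickOf (FreeAlgebra.ι ℂ) w) = wickOf x w := by
  rw [lift_wick]
  simp

/-- Moments determine the trace of every polynomial. -/
theorem tr_lift_congr {κ : Type} [DecidableEq κ] (x : J → Hil ι →L[ℂ] Hil ι)
    (y : J → Hil κ →L[ℂ] Hil κ)
    (h : ∀ w : List J, tr ι (w.map x).prod = tr κ (w.map y).prod) (p : FreeAlgebra ℂ J) :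
    tr ι (FreeAlgebra.lift ℂ x p) = tr κ (FreeAlgebra.lift ℂ y p) := by
  have hp : p ∈ Submodule.span ℂ (Set.range (Lower.word' : List J → FreeAlgebra ℂ J)) := by
    rw [Lower.span_word']; trivial
  induction hp using Submodule.span_induction with
  | mem q hq =>
    obtain ⟨u, rfl⟩ := hq
    simpa [Lower.lift_word'] using h u
  | zero => simp
  | add q r _ _ hq hr => simp [hq, hr]
  | smul c q _ hq => simp [hq]

end Poly

/-! ### Relabelled families -/

section Relabel

variable {J : Type} [DecidableEq J] (f : J → ι)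

theorem emb_semi_relabel (hf : Function.Injective f) (a : J) (v : Fck J) :
    semi (f a) (Finsupp.mapDomain (List.map f) v) =
      Finsupp.mapDomain (List.map f) (semi a v) := by
  induction v using fck_induction with
  | h0 => simp
  | hadd u u' hu hu' => simp only [Finsupp.mapDomain_add, map_add, hu, hu']
  | hw w r =>
    simp only [Finsupp.mapDomain_smul, map_smul]
    congr 1
    simp only [word, Finsupp.mapDomain_single]
    rcases w with _ | ⟨b, w⟩
    · have h1 := semi_word_nil a
      have h2 := semi_word_nil (f a)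
      simp only [word] at h1 h2
      simp [h1, h2]
    · have h1 := semi_word_cons a b w
      have h2 := semi_word_cons (f a) (f b) (w.map f)
      simp only [word] at h1 h2
      rw [h1, List.map_cons, h2, Finsupp.mapDomain_add]
      by_cases hab : a = b <;> simp [hab, hf.eq_iff]

theorem tr_moment_relabel (hf : Function.Injective f) (w : List J) :
    tr ι (w.map fun a => (ls (f a) : Hil ι →L[ℂ] Hil ι)).prod =
      ((vacState (opProd semi w) : ℝ) : ℂ) := by
  have key : ∀ (w : List J) (v : Fck J),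
      (w.map fun a => (ls (f a) : Hil ι →L[ℂ] Hil ι)).prod
          (emb (Finsupp.mapDomain (List.map f) v)) =
        emb (Finsupp.mapDomain (List.map f) ((w.map semi).prod v)) := by
    intro w
    induction w with
    | nil => intro v; simp
    | cons a w ih =>
      intro v
      rw [List.map_cons, List.prod_cons, mul_apply_eq_comp, ih, ls_emb,
        emb_semi_relabel f hf, List.map_cons, List.prod_cons, Module.End.mul_apply]
  have hv : (bas [] : Hil ι) = emb (Finsupp.mapDomain (List.map f) (vac : Fck J)) := by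
    rw [vac, Finsupp.mapDomain_single, List.map_nil]
    exact (emb_word []).symm
  rw [tr_eq_coord, hv, key, ← inner_bas_left, show (bas [] : Hil ι) = emb (word []) from
    (emb_word []).symm, emb_inner, dot_word, ← List.map_nil (f := f),
    Finsupp.mapDomain_apply (List.map_injective_iff.2 hf)]
  rfl

theorem tr_lift_relabel (hf : Function.Injective f) (p : FreeAlgebra ℂ J) :
    tr ι (FreeAlgebra.lift ℂ (fun a => (ls (f a) : Hil ι →L[ℂ] Hil ι)) p) =
      tr J (FreeAlgebra.lift ℂ (ls : J → Hil J →L[ℂ] Hil J) p) := by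
  refine tr_lift_congr _ _ (fun w => ?_) p
  rw [tr_moment_relabel f hf w]
  simpa using (tr_moment_relabel (id : J → J) Function.injective_id w).symm

end Relabel

theorem wick_ls_bas (w : List ι) :
    wickOf (ls : ι → Hil ι →L[ℂ] Hil ι) w (bas []) = bas w := by
  let E : FockEmbedding ι (Hil ι) := ⟨emb, emb_add, emb_smul, emb_inner⟩
  have h := (FockEmbedding.Rel.wickOf (E := E) (fun a => ls_emb a) w) vac
  rw [wickOf_semi_vac] at h
  simpa [E, vac_eq_word, emb_word] using h

theorem tr_wick_ls (w : List ι) :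
    tr ι (wickOf (ls : ι → Hil ι →L[ℂ] Hil ι) w) = if w = [] then 1 else 0 := by
  rw [tr_eq_coord, wick_ls_bas, bas_apply]
  simp [eq_comm]

/-! ### Lipschitz bound for the sine in the vector norm -/

section Sine

theorem norm_pow_sub_pow_apply_le {u v : Hil ι →L[ℂ] Hil ι} (hu : u ∈ alg ι) (hv : v ∈ alg ι)
    (hu1 : ‖u‖ ≤ 1) (hv1 : ‖v‖ ≤ 1) :
    ∀ n : ℕ, ‖(u ^ n - v ^ n) (bas [])‖ ≤ n * ‖(u - v) (bas [])‖
  | 0 => by simp
  | n + 1 => by
      have ih := norm_pow_sub_pow_apply_le hu hv hu1 hv1 n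
      have e : u ^ (n + 1) - v ^ (n + 1) = u * (u ^ n - v ^ n) + (u - v) * v ^ n := by
        rw [pow_succ' u n, pow_succ' v n]; noncomm_ring
      have hvn : ‖v ^ n‖ ≤ 1 := by
        rcases Nat.eq_zero_or_pos n with rfl | hn
        · rw [pow_zero]; exact ContinuousLinearMap.norm_id_le
        · exact (norm_pow_le' v hn).trans (pow_le_one₀ (norm_nonneg _) hv1)
      rw [e, _root_.add_apply, Nat.cast_succ, add_mul, one_mul]
      refine (norm_add_le _ _).trans (add_le_add ?_ ?_)
      · rw [mul_apply_eq_comp]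
        refine ((u.le_opNorm _).trans ?_)
        exact (mul_le_of_le_one_left (norm_nonneg _) hu1).trans ih
      · refine (norm_mul_apply_le (sub_mem hu hv) (pow_mem hv n)).trans ?_
        exact mul_le_of_le_one_left (norm_nonneg _) hvn

/-- `e^{itA}` by the continuous functional calculus. -/
def expI (A : Hil ι →L[ℂ] Hil ι) (t : ℝ) : Hil ι →L[ℂ] Hil ι :=
  cfc (fun x : ℂ => Complex.exp (Complex.I * t * x.re)) A

theorem norm_expI_le (A : Hil ι →L[ℂ] Hil ι) (t : ℝ) : ‖expI A t‖ ≤ 1 := by
  refine norm_cfc_le zero_le_one fun x _ => ?_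
  rw [Complex.norm_exp]
  simp

theorem commute_of_mem_alg {A : Hil ι →L[ℂ] Hil ι} (hA : A ∈ alg ι) (hs : IsSelfAdjoint A)
    (f : ℂ → ℂ) : cfc f A ∈ alg ι := by
  refine mem_alg_iff.2 fun b => ?_
  have hc : Commute A (rs b) := (mem_alg_iff.1 hA b).symm
  exact ((hc.cfc (by rw [hs.star_eq]; exact hc) f).eq).symm

theorem expI_mul_nat {A : Hil ι →L[ℂ] Hil ι} (hs : IsSelfAdjoint A) (t : ℝ) (n : ℕ) :
    expI A t ^ n = expI A (n * t) := by
  unfold expI
  rw [← cfc_pow _ _ A (by fun_prop) hs.isStarNormal]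
  congr 1
  funext x
  rw [← Complex.exp_nat_mul]
  push_cast
  congr 1
  ring

theorem expI_linear {A : Hil ι →L[ℂ] Hil ι} (hs : IsSelfAdjoint A) {R : ℝ} (hR : ‖A‖ ≤ R)
    (t : ℝ) (ht : |t| * R ≤ 1) :
    ‖expI A t - (1 + (Complex.I * t) • A)‖ ≤ t ^ 2 * R ^ 2 := by
  have hn := hs.isStarNormal
  have hre : cfc (fun x : ℂ => ((x.re : ℝ) : ℂ)) A = A := by
    conv_rhs => rw [← cfc_id ℂ A hn]
    refine cfc_congr fun x hx => ?_
    exact (hs.mem_spectrum_eq_re hx).symm
  have e : (1 + (Complex.I * t) • A) = cfc (fun x : ℂ => 1 + (Complex.I * t) * x.re) A := by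
    rw [cfc_add A (fun _ => (1 : ℂ)) (fun x => (Complex.I * t) * x.re) (by fun_prop) (by fun_prop),
      cfc_const (1 : ℂ) A hn, cfc_const_mul _ _ A (by fun_prop), hre, map_one]
  rw [e, expI, ← cfc_sub _ _ A (by fun_prop) (by fun_prop)]
  refine norm_cfc_le (by positivity) fun x hx => ?_
  have hx' : |x.re| ≤ R := ((Complex.abs_re_le_norm x).trans (spectrum.norm_le_norm_of_mem hx)).trans hR
  have h1 : ‖Complex.I * t * x.re‖ ≤ |t| * R := by
    simp only [norm_mul, Complex.norm_I, one_mul, Complex.norm_real, Real.norm_eq_abs]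
    exact mul_le_mul_of_nonneg_left hx' (abs_nonneg _)
  have h2 := Complex.norm_exp_sub_one_sub_id_le (h1.trans ht)
  rw [← sub_sub]
  refine h2.trans ?_
  calc ‖Complex.I * t * x.re‖ ^ 2 ≤ (|t| * R) ^ 2 := pow_le_pow_left₀ (norm_nonneg _) h1 2
    _ = t ^ 2 * R ^ 2 := by rw [mul_pow, sq_abs]

theorem norm_expI_sub_apply_le {A B : Hil ι →L[ℂ] Hil ι} (hA : A ∈ alg ι) (hB : B ∈ alg ι)
    (sA : IsSelfAdjoint A) (sB : IsSelfAdjoint B) (t : ℝ) :
    ‖(expI A t - expI B t) (bas [])‖ ≤ |t| * ‖(A - B) (bas [])‖ := by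
  set R := max ‖A‖ ‖B‖ with hR
  have hR0 : 0 ≤ R := (norm_nonneg A).trans (le_max_left _ _)
  have key : ∀ᶠ n : ℕ in atTop, ‖(expI A t - expI B t) (bas [])‖ ≤
      |t| * ‖(A - B) (bas [])‖ + 2 * t ^ 2 * R ^ 2 / n := by
    filter_upwards [eventually_ge_atTop 1,
      (tendsto_natCast_atTop_atTop (R := ℝ)).eventually_ge_atTop (|t| * R)] with n hn hn'
    have hn0 : (0 : ℝ) < n := by exact_mod_cast hn
    set u := t / n with hu
    have hu1 : |u| * R ≤ 1 := by
      rw [hu, abs_div, abs_of_pos hn0, div_mul_eq_mul_div, div_le_one hn0]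
      exact hn'
    have hnu : (n : ℝ) * u = t := by rw [hu]; field_simp
    have h1 := expI_linear sA (le_max_left _ _) u hu1
    have h2 := expI_linear sB (le_max_right _ _) u hu1
    have h3 : ‖(expI A u - expI B u) (bas [])‖ ≤
        |u| * ‖(A - B) (bas [])‖ + 2 * (u ^ 2 * R ^ 2) := by
      have e : expI A u - expI B u = (Complex.I * u) • (A - B) +
          ((expI A u - (1 + (Complex.I * u) • A)) - (expI B u - (1 + (Complex.I * u) • B))) := by
        rw [smul_sub]; abel
      rw [e, _root_.add_apply]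
      refine (norm_add_le _ _).trans (add_le_add (le_of_eq ?_) ?_)
      · rw [_root_.smul_apply, norm_smul]
        simp
      · refine (norm_apply_le _).trans ((norm_sub_le _ _).trans ?_)
        linarith
    have h4 := norm_pow_sub_pow_apply_le (commute_of_mem_alg hA sA _) (commute_of_mem_alg hB sB _)
      (norm_expI_le A u) (norm_expI_le B u) n
    change ‖(expI A u ^ n - expI B u ^ n) (bas [])‖ ≤ _ at h4
    rw [expI_mul_nat sA, expI_mul_nat sB, hnu] at h4
    refine h4.trans ((mul_le_mul_of_nonneg_left h3 hn0.le).trans (le_of_eq ?_))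
    rw [hu, abs_div, abs_of_pos hn0]
    field_simp
  refine le_of_tendsto_of_tendsto tendsto_const_nhds ?_ key
  have h0 := (tendsto_const_div_atTop_nhds_zero_nat (2 * t ^ 2 * R ^ 2)).const_add
    (|t| * ‖(A - B) (bas [])‖)
  simpa using h0

theorem cfc_sin_eq {A : Hil ι →L[ℂ] Hil ι} (hs : IsSelfAdjoint A) :
    cfc Real.sin A = (2 * Complex.I)⁻¹ • (expI A 1 - expI A (-1)) := by
  refine (cfc_real_eq_complex Real.sin hs).trans ?_
  rw [expI, expI,
    ← cfc_sub _ _ A (by fun_prop) (by fun_prop), ← cfc_smul _ _ A (by fun_prop)]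
  congr 1
  funext x
  simp only [smul_eq_mul, Complex.ofReal_one, Complex.ofReal_neg, Complex.ofReal_sin, Complex.sin,
    mul_one, mul_neg, neg_mul]
  field_simp
  rw [Complex.I_sq]
  ring_nf

/-- The sine is `1`-Lipschitz in the vector norm. -/
theorem norm_sin_sub_apply_le {A B : Hil ι →L[ℂ] Hil ι} (hA : A ∈ alg ι) (hB : B ∈ alg ι)
    (sA : IsSelfAdjoint A) (sB : IsSelfAdjoint B) :
    ‖(cfc Real.sin A - cfc Real.sin B) (bas [])‖ ≤ ‖(A - B) (bas [])‖ := by
  have e : cfc Real.sin A - cfc Real.sin B = (2 * Complex.I)⁻¹ •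
      ((expI A 1 - expI B 1) - (expI A (-1) - expI B (-1))) := by
    rw [cfc_sin_eq sA, cfc_sin_eq sB, ← smul_sub]
    congr 1
    abel
  rw [e, _root_.smul_apply, norm_smul, _root_.sub_apply]
  have h1 := norm_expI_sub_apply_le hA hB sA sB 1
  have h2 := norm_expI_sub_apply_le hA hB sA sB (-1)
  simp only [abs_one, abs_neg, one_mul] at h1 h2
  have h3 : ‖(2 * Complex.I)⁻¹‖ = (1 / 2 : ℝ) := by simp
  rw [h3]
  linarith [norm_sub_le ((expI A 1 - expI B 1) (bas [])) ((expI A (-1) - expI B (-1)) (bas []))]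

end Sine

/-! ### Self-adjoint Wick polynomials -/

/-- The Wick polynomial with coefficients `t` on the words of `W`. -/
def wpoly {K A : Type} [DecidableEq K] [Ring A] [Algebra ℂ A] (s : K → A) (W : Finset (List K))
    (t : List K → ℂ) : A := ∑ w ∈ W, t w • wickOf s w

theorem lift_wpoly {J K A : Type} [DecidableEq K] [Ring A] [Algebra ℂ A] (x : J → A)
    (P : K → FreeAlgebra ℂ J) (W : Finset (List K)) (t : List K → ℂ) :
    FreeAlgebra.lift ℂ x (wpoly P W t) = wpoly (fun a => FreeAlgebra.lift ℂ x (P a)) W t := by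
  simp [wpoly, lift_wick]

theorem wpoly_isSelfAdjoint {K A : Type} [DecidableEq K] [Ring A] [Algebra ℂ A] [StarRing A]
    [StarModule ℂ A] (s : K → A) (hs : ∀ a, star (s a) = s a) (W : Finset (List K))
    (t : List K → ℂ) (hW : ∀ w ∈ W, w.reverse ∈ W)
    (ht : ∀ w, t w.reverse = starRingEnd ℂ (t w)) : IsSelfAdjoint (wpoly s W t) := by
  unfold IsSelfAdjoint wpoly
  rw [star_sum]
  refine Finset.sum_bij' (fun w _ => w.reverse) (fun w _ => w.reverse) hW hW
    (fun w _ => w.reverse_reverse) (fun w _ => w.reverse_reverse) fun w _ => ?_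
  rw [star_smul, star_wick s hs _ w le_rfl, ht]
  rfl

theorem wpoly_ls_bas (W : Finset (List ι)) (t : List ι → ℂ) :
    wpoly (ls : ι → Hil ι →L[ℂ] Hil ι) W t (bas []) = ∑ w ∈ W, t w • bas w := by
  simp [wpoly, wick_ls_bas]

theorem coord_rev {B : Hil ι →L[ℂ] Hil ι} (hB : B ∈ alg ι) (hs : IsSelfAdjoint B) (w : List ι) :
    B (bas []) w.reverse = starRingEnd ℂ (B (bas []) w) := by
  have h := coord_star hB w
  rw [hs.star_eq] at h
  exact h.symm

/-- A self-adjoint element is approximated in the vector norm by self-adjoint Wick polynomials. -/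
theorem exists_wpoly_close {B : Hil ι →L[ℂ] Hil ι} (W0 : Finset (List ι)) {δ : ℝ} (hδ : 0 < δ) :
    ∃ W : Finset (List ι), W0 ⊆ W ∧ (∀ w ∈ W, w.reverse ∈ W) ∧
      ‖(∑ w ∈ W, B (bas []) w • bas w) - B (bas [])‖ < δ := by
  have h := lp.hasSum_single (p := 2) ENNReal.ofNat_ne_top (B (bas []))
  have h' : HasSum (fun w => B (bas []) w • bas w) (B (bas [])) := by
    refine h.congr_fun fun w => ?_
    generalize (B (bas []) : List ι → ℂ) w = c
    rw [bas, ← lp.single_smul, smul_eq_mul, mul_one]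
  obtain ⟨s, hs⟩ := Filter.eventually_atTop.1
    ((tendsto_order.1 (tendsto_iff_norm_sub_tendsto_zero.1 h')).2 δ hδ)
  refine ⟨(s ∪ W0) ∪ (s ∪ W0).image List.reverse,
    Finset.subset_union_right.trans Finset.subset_union_left, fun w hw => ?_, ?_⟩
  · rcases Finset.mem_union.1 hw with hw | hw
    · exact Finset.mem_union_right _ (Finset.mem_image_of_mem _ hw)
    · obtain ⟨v, hv, rfl⟩ := Finset.mem_image.1 hw
      rw [List.reverse_reverse]
      exact Finset.mem_union_left _ hv
  · exact hs _ (Finset.subset_union_left.trans Finset.subset_union_left)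

end

end Vale.Agent.P086
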