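import Vale.Agent.P086.Expand
import Vale.Agent.P087.Upper
import Vale.Agent.P087.GUE

/-!
# P086: counting of matrix microstates

If `y_i` is recovered up to `ε_i` by a decoder applied to `c x(y) + d g`, then
`(√(2e)/d)^m ∏ (√e ε_i) ≥ 1/2`.
-/

open Filter MeasureTheory
open scoped InnerProductSpace Topology ENNReal NNReal

namespace Vale.Agent.P086

open Vale.Agent.P087 Vale.Agent.P087.Realisation

noncomputable section

set_option linter.unusedSectionVars false

variable {k : ℕ}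

/-- One GUE matrix in coordinates. -/
def gue1 (k : ℕ) : Measure (Fin k → Fin k → ℝ) :=
  Measure.pi fun _ => Measure.pi fun _ => ProbabilityTheory.gaussianReal 0 ((k : ℝ≥0))⁻¹

instance : IsProbabilityMeasure (gue1 k) := by unfold gue1; infer_instance

/-- The volume of a Euclidean ball in the coordinates. -/
theorem volume_ball_le (c : Fin k → Fin k → ℝ) {s : ℝ} (hs : 0 < s) :
    volume {x : Fin k → Fin k → ℝ | Upper.sqSum (x - c) ≤ (k * k : ℕ) * s} ≤
      ENNReal.ofReal ((Real.sqrt (Real.exp 1) * Real.sqrt (2 * Real.pi * s)) ^ (k * k)) := by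
  set E := Real.sqrt (Real.exp 1) ^ (k * k) with hE
  have h2 : (volume : Measure (Fin k → ℝ)).IsAddLeftInvariant := inferInstance
  have h3 : (volume : Measure (Fin k → Fin k → ℝ)).IsAddLeftInvariant :=
    Pi.isAddLeftInvariant_volume
  have hsub : {x : Fin k → Fin k → ℝ | Upper.sqSum (x - c) ≤ (k * k : ℕ) * s} ⊆
      {x | 1 ≤ ENNReal.ofReal (E * Upper.gw s (x - c))} := by
    intro x hx
    simp only [Set.mem_ofPred_eq] at hx ⊢
    rw [← ENNReal.ofReal_one]
    refine ENNReal.ofReal_le_ofReal ?_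
    rw [hE, Upper.gw_eq, ← Real.exp_half, ← Real.exp_nat_mul, ← Real.exp_add]
    refine Real.one_le_exp ?_
    have h : 1 / (2 * s) * Upper.sqSum (x - c) ≤ (k * k : ℕ) * (1 / 2) := by
      refine le_trans (mul_le_mul_of_nonneg_left hx (by positivity)) (le_of_eq ?_)
      field_simp
    linarith
  refine (measure_mono hsub).trans ?_
  refine le_trans (le_of_eq (one_mul _).symm) (le_trans (mul_meas_ge_le_lintegral₀ ?_ 1) ?_)
  · exact ((((Upper.measurable_gw s).comp (measurable_id.sub_const c))).const_mul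
      E).ennreal_ofReal.aemeasurable
  have hE0 : 0 ≤ E := by positivity
  simp only [ENNReal.ofReal_mul hE0]
  rw [lintegral_const_mul' _ _ ENNReal.ofReal_ne_top,
    lintegral_sub_right_eq_self (μ := (volume : Measure (Fin k → Fin k → ℝ)))
      (fun x => ENNReal.ofReal (Upper.gw s x)) c,
    ← ofReal_integral_eq_lintegral_ofReal (Upper.integrable_gw hs)
      (Eventually.of_forall fun x => (Upper.gw_pos s x).le),
    Upper.integral_gw hs, ← ENNReal.ofReal_mul hE0, mul_pow]

theorem gue1_le (hk : k ≠ 0) : gue1 k ≤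
    ENNReal.ofReal (((Real.sqrt (2 * Real.pi * (k : ℝ)⁻¹))⁻¹) ^ (k * k)) • volume := by
  set b := (k : ℝ)⁻¹ with hb
  have hk0 : (0 : ℝ) < k := by exact_mod_cast Nat.pos_of_ne_zero hk
  have hb0 : 0 < b := inv_pos.2 hk0
  set C := ENNReal.ofReal (Real.sqrt (2 * Real.pi * b))⁻¹ with hC
  have hC0 : C ≠ 0 := by
    simp only [hC, ne_eq, ENNReal.ofReal_eq_zero, not_le]
    positivity
  have h0 : ∀ _ : Fin k, ProbabilityTheory.gaussianReal 0 ((k : ℝ≥0))⁻¹ ≤ C • volume := fun _ =>
    Lower.gaussianReal_le_smul_volume 0 _ (by simp [hk]) hb0 (by simp [hb])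
  have h1 : ∀ _ : Fin k, (Measure.pi fun _ : Fin k => ProbabilityTheory.gaussianReal 0 ((k : ℝ≥0))⁻¹) ≤
      C ^ k • Measure.pi fun _ : Fin k => (volume : Measure ℝ) := fun _ => by
    simpa using Lower.pi_le_pow_smul volume _ hC0 ENNReal.ofReal_ne_top h0
  have h2 := Lower.pi_le_pow_smul (Measure.pi fun _ : Fin k => (volume : Measure ℝ)) _
    (pow_ne_zero _ hC0) (ENNReal.pow_ne_top ENNReal.ofReal_ne_top) h1
  rw [Fintype.card_fin, ← pow_mul, hC, ← ENNReal.ofReal_pow (by positivity)] at h2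
  simpa only [volume_pi, gue1] using h2

/-- A GUE matrix lies in a fixed ball of radius `√k ε` with probability `≤ (√e ε)^{k²}`. -/
theorem gue1_ball_le (hk : k ≠ 0) (c : Fin k → Fin k → ℝ) {ε : ℝ} (hε : 0 < ε) :
    gue1 k {x | Upper.sqSum (x - c) ≤ k * ε ^ 2} ≤
      ENNReal.ofReal ((Real.sqrt (Real.exp 1) * ε) ^ (k * k)) := by
  have hk0 : (0 : ℝ) < k := by exact_mod_cast Nat.pos_of_ne_zero hk
  have hs : 0 < ε ^ 2 / k := by positivity
  have e : (k : ℝ) * ε ^ 2 = (k * k : ℕ) * (ε ^ 2 / k) := by push_cast; field_simp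
  rw [e]
  refine (Measure.le_iff'.1 (gue1_le hk) _).trans ?_
  rw [Measure.smul_apply, smul_eq_mul]
  refine (mul_le_mul' le_rfl (volume_ball_le c hs)).trans (le_of_eq ?_)
  rw [← ENNReal.ofReal_mul (by positivity), ← mul_pow]
  congr 2
  have e2 : Real.sqrt (2 * Real.pi * (ε ^ 2 / k)) = ε * Real.sqrt (2 * Real.pi * (k : ℝ)⁻¹) := by
    rw [show 2 * Real.pi * (ε ^ 2 / k) = ε ^ 2 * (2 * Real.pi * (k : ℝ)⁻¹) by ring,
      Real.sqrt_mul (sq_nonneg ε), Real.sqrt_sq hε.le]
  rw [e2]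
  field_simp

variable {G : Type} [Fintype G] [DecidableEq G] {m : ℕ}

theorem gueMeasure_eq (J : Type) [Fintype J] (k : ℕ) :
    gueMeasure J k = Measure.pi fun _ : J => gue1 k := rfl

theorem pi_ball_le (hk : k ≠ 0) (F : Finset G) (C : G → Fin k → Fin k → ℝ) (ε : G → ℝ)
    (hε : ∀ i ∈ F, 0 < ε i) :
    gueMeasure G k {y | ∀ i ∈ F, Upper.sqSum (y i - C i) ≤ k * ε i ^ 2} ≤
      ENNReal.ofReal ((∏ i ∈ F, Real.sqrt (Real.exp 1) * ε i) ^ (k * k)) := by
  classical
  have e : {y : G → Fin k → Fin k → ℝ | ∀ i ∈ F, Upper.sqSum (y i - C i) ≤ k * ε i ^ 2} =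
      Set.univ.pi fun i => if i ∈ F then {x | Upper.sqSum (x - C i) ≤ k * ε i ^ 2} else Set.univ := by
    ext y
    simp only [Set.mem_ofPred_eq, Set.mem_pi, Set.mem_univ, forall_true_left]
    refine forall_congr' fun i => ?_
    by_cases hi : i ∈ F <;> simp [hi]
  rw [e, gueMeasure_eq, Measure.pi_pi, ← Finset.prod_pow, ENNReal.ofReal_prod_of_nonneg
    (fun i hi => by have := hε i hi; positivity), ← Finset.prod_subset (Finset.subset_univ F)]
  · refine Finset.prod_le_prod' fun i hi => ?_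
    rw [if_pos hi]
    exact gue1_ball_le hk (C i) (hε i hi)
  · intro i _ hi
    rw [if_neg hi, measure_univ]

theorem continuous_coords :
    Continuous (Lower.coords : Matrix (Fin k) (Fin k) ℂ → Fin k → Fin k → ℝ) := by
  refine continuous_pi fun a => continuous_pi fun b => ?_
  unfold Lower.coords
  split_ifs <;> fun_prop

theorem continuous_lift {J : Type} (q : FreeAlgebra ℂ J) :
    Continuous fun a : J → Fin k → Fin k → ℝ =>
      FreeAlgebra.lift ℂ (fun i => hermitian (a i)) q := by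
  induction q using FreeAlgebra.induction with
  | grade0 c => simp only [AlgHom.commutes]; exact continuous_const
  | grade1 i =>
    simp only [FreeAlgebra.lift_ι_apply]
    exact Lower.continuous_hermitian.comp (continuous_apply i)
  | mul q r hq hr => simp only [map_mul]; exact hq.matrix_mul hr
  | add q r hq hr => simp only [map_add]; exact hq.add hr

theorem continuous_sqSum : Continuous (Upper.sqSum : (Fin k → Fin k → ℝ) → ℝ) := by
  unfold Upper.sqSum; fun_prop

/-- The affine map producing the rotated variables. -/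
def aff (xc : (G → Fin k → Fin k → ℝ) → Fin m → Fin k → Fin k → ℝ) (d : ℝ)
    (y : G → Fin k → Fin k → ℝ) (g : Fin m → Fin k → Fin k → ℝ) : Fin m → Fin k → Fin k → ℝ :=
  fun j a b => xc y j a b + d * g j a b

/-- The rotated variables are in the ball and decode `y`. -/
def goodSet (F : Finset G) (Ctr : (Fin m → Fin k → Fin k → ℝ) → G → Fin k → Fin k → ℝ)
    (ε : G → ℝ) : Set ((G → Fin k → Fin k → ℝ) × (Fin m → Fin k → Fin k → ℝ)) :=
  {p | (∀ a, Upper.sqSum (p.2 a) ≤ k * 2) ∧
    ∀ i ∈ F, Upper.sqSum (p.1 i - Ctr p.2 i) ≤ k * ε i ^ 2}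

theorem measurableSet_goodSet (F : Finset G)
    {Ctr : (Fin m → Fin k → Fin k → ℝ) → G → Fin k → Fin k → ℝ} (hCtr : Continuous Ctr)
    (ε : G → ℝ) : MeasurableSet (goodSet F Ctr ε) := by
  have e : goodSet F Ctr ε = (⋂ a, {p | Upper.sqSum (p.2 a) ≤ k * 2}) ∩
      ⋂ i ∈ F, {p | Upper.sqSum (p.1 i - Ctr p.2 i) ≤ k * ε i ^ 2} := by
    ext p
    simp [goodSet]
  rw [e]
  refine IsClosed.measurableSet (IsClosed.inter ?_ ?_)
  · exact isClosed_iInter fun a => isClosed_le
      (continuous_sqSum.comp ((continuous_apply a).comp continuous_snd)) continuous_const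
  · exact isClosed_iInter fun i => isClosed_iInter fun _ => isClosed_le
      (continuous_sqSum.comp (((continuous_apply i).comp continuous_fst).sub
        ((continuous_apply i).comp (hCtr.comp continuous_snd)))) continuous_const

theorem measurable_aff {xc : (G → Fin k → Fin k → ℝ) → Fin m → Fin k → Fin k → ℝ}
    (hxc : Continuous xc) (d : ℝ) : Measurable fun
      p : (G → Fin k → Fin k → ℝ) × (Fin m → Fin k → Fin k → ℝ) => (p.1, aff xc d p.1 p.2) := by
  refine Continuous.measurable (continuous_fst.prodMk ?_)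
  exact continuous_pi fun j => continuous_pi fun a => continuous_pi fun b =>
    ((continuous_apply b).comp ((continuous_apply a).comp ((continuous_apply j).comp
      (hxc.comp continuous_fst)))).add (continuous_const.mul ((continuous_apply b).comp
      ((continuous_apply a).comp ((continuous_apply j).comp continuous_snd))))

theorem section_le (hk : k ≠ 0) {xc : (G → Fin k → Fin k → ℝ) → Fin m → Fin k → Fin k → ℝ}
    (hxc : Continuous xc) {d : ℝ} (hd : 0 < d)
    {S : Set ((G → Fin k → Fin k → ℝ) × (Fin m → Fin k → Fin k → ℝ))} (hS : MeasurableSet S)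
    (y : G → Fin k → Fin k → ℝ) :
    gueMeasure (Fin m) k {g | (y, aff xc d y g) ∈ S} ≤
      ((ENNReal.ofReal (Real.sqrt (2 * Real.pi * (d ^ 2 / k)))⁻¹ ^ k) ^ k) ^ m *
        volume (Prod.mk y ⁻¹' S) := by
  have hb : 0 < d ^ 2 / k := div_pos (pow_pos hd 2) (by exact_mod_cast Nat.pos_of_ne_zero hk)
  have h := Lower.map_affine_le (xc y) (fun _ => d) ((k : ℝ≥0))⁻¹ (by simp [hk]) hb
    (fun _ => le_of_eq (by push_cast; ring))
  have hm : Measurable (aff xc d y) :=
    measurable_snd.comp ((measurable_aff hxc d).comp measurable_prodMk_left)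
  have h1 := Measure.le_iff'.1 h (Prod.mk y ⁻¹' S)
  change Measure.map (aff xc d y) (gueMeasure (Fin m) k) _ ≤ _ at h1
  rw [Measure.map_apply hm (measurable_prodMk_left hS), Measure.smul_apply, smul_eq_mul] at h1
  exact h1

theorem volume_ball_two (hk : k ≠ 0) :
    volume {x : Fin k → Fin k → ℝ | Upper.sqSum x ≤ k * 2} ≤
      ENNReal.ofReal ((Real.sqrt (Real.exp 1) * Real.sqrt (2 * Real.pi * (2 / k))) ^ (k * k)) := by
  have hk0 : (0 : ℝ) < k := by exact_mod_cast Nat.pos_of_ne_zero hk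
  have h := volume_ball_le (0 : Fin k → Fin k → ℝ) (s := 2 / k) (by positivity)
  simp only [sub_zero] at h
  have e : ((k * k : ℕ) : ℝ) * (2 / k) = k * 2 := by push_cast; field_simp
  rwa [e] at h

theorem ball_const (hk : k ≠ 0) {d : ℝ} (hd : 0 < d) :
    (Real.sqrt (2 * Real.pi * (d ^ 2 / k)))⁻¹ *
      (Real.sqrt (Real.exp 1) * Real.sqrt (2 * Real.pi * (2 / k))) =
      Real.sqrt (2 * Real.exp 1) / d := by
  have hk0 : (0 : ℝ) < k := by exact_mod_cast Nat.pos_of_ne_zero hk
  have hs : 0 < Real.sqrt (2 * Real.pi / k) := Real.sqrt_pos.2 (by positivity)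
  rw [show 2 * Real.pi * (2 / (k : ℝ)) = 2 * (2 * Real.pi / k) by ring,
    show 2 * Real.pi * (d ^ 2 / (k : ℝ)) = d ^ 2 * (2 * Real.pi / k) by ring,
    Real.sqrt_mul (sq_nonneg d), Real.sqrt_sq hd.le, Real.sqrt_mul zero_le_two,
    Real.sqrt_mul zero_le_two (Real.exp 1)]
  field_simp

/-- The probability that `y` can be decoded from the rotated variables. -/
theorem goodSet_le (hk : k ≠ 0) (F : Finset G)
    {xc : (G → Fin k → Fin k → ℝ) → Fin m → Fin k → Fin k → ℝ} (hxc : Continuous xc)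
    {Ctr : (Fin m → Fin k → Fin k → ℝ) → G → Fin k → Fin k → ℝ} (hCtr : Continuous Ctr)
    {d : ℝ} (hd : 0 < d) (ε : G → ℝ) (hε : ∀ i ∈ F, 0 < ε i) :
    gueMeasure (G ⊕ Fin m) k
        (MeasurableEquiv.sumPiEquivProdPi (fun _ : G ⊕ Fin m => Fin k → Fin k → ℝ) ⁻¹'
          ((fun p => (p.1, aff xc d p.1 p.2)) ⁻¹' goodSet F Ctr ε)) ≤
      ENNReal.ofReal (((Real.sqrt (2 * Real.exp 1) / d) ^ m *
        ∏ i ∈ F, Real.sqrt (Real.exp 1) * ε i) ^ (k * k)) := by
  set S2 := goodSet F Ctr ε with hS2def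
  have hS2 : MeasurableSet S2 := measurableSet_goodSet F hCtr ε
  have haff := measurable_aff hxc d
  set qF := ∏ i ∈ F, Real.sqrt (Real.exp 1) * ε i with hqF
  have hqF0 : 0 ≤ qF := Finset.prod_nonneg fun i hi => by have := hε i hi; positivity
  have hmp : MeasurePreserving
      (MeasurableEquiv.sumPiEquivProdPi (fun _ : G ⊕ Fin m => Fin k → Fin k → ℝ))
      (gueMeasure (G ⊕ Fin m) k) ((gueMeasure G k).prod (gueMeasure (Fin m) k)) :=
    measurePreserving_sumPiEquivProdPi (fun _ : G ⊕ Fin m => gue1 k)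
  have : SigmaFinite (gueMeasure G k) := by rw [gueMeasure_eq]; infer_instance
  have : SFinite (gueMeasure (Fin m) k) := by rw [gueMeasure_eq]; infer_instance
  rw [hmp.measure_preimage (haff hS2).nullMeasurableSet, Measure.prod_apply (haff hS2)]
  refine (lintegral_mono fun y => section_le hk hxc hd hS2 y).trans ?_
  rw [lintegral_const_mul' _ _ (ENNReal.pow_ne_top (ENNReal.pow_ne_top
      (ENNReal.pow_ne_top ENNReal.ofReal_ne_top))),
    ← Measure.prod_apply hS2, Measure.prod_apply_symm hS2]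
  set B : Set (Fin m → Fin k → Fin k → ℝ) :=
    Set.univ.pi fun _ => {x | Upper.sqSum x ≤ k * 2} with hBdef
  have hBm : MeasurableSet B := MeasurableSet.univ_pi fun _ =>
    (isClosed_le continuous_sqSum continuous_const).measurableSet
  have hslice : ∀ z, gueMeasure G k ((fun y => (y, z)) ⁻¹' S2) ≤
      B.indicator (fun _ => ENNReal.ofReal (qF ^ (k * k))) z := by
    intro z
    by_cases hzB : z ∈ B
    · rw [Set.indicator_of_mem hzB]
      exact (measure_mono fun y hy => hy.2).trans (pi_ball_le hk F (Ctr z) ε hε)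
    · rw [Set.indicator_of_notMem hzB]
      refine le_of_eq ?_
      have : (fun y => (y, z)) ⁻¹' S2 = ∅ := by
        ext y
        simp only [Set.mem_preimage, Set.mem_empty_iff_false, iff_false]
        exact fun hy => hzB fun a _ => hy.1 a
      rw [this, measure_empty]
  refine (mul_le_mul' le_rfl (lintegral_mono hslice)).trans ?_
  rw [lintegral_indicator_const hBm, hBdef, volume_pi_pi]
  simp only [Finset.prod_const, Finset.card_univ, Fintype.card_fin]
  refine (mul_le_mul' le_rfl (mul_le_mul' le_rfl (pow_le_pow_left' (volume_ball_two hk) m))).trans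
    (le_of_eq ?_)
  simp only [← pow_mul]
  rw [← ENNReal.ofReal_pow (by positivity), ← ENNReal.ofReal_pow (by positivity),
    ← ENNReal.ofReal_mul (by positivity), ← ENNReal.ofReal_mul (by positivity)]
  congr 1
  calc _ = qF ^ (k * k) * ((Real.sqrt (2 * Real.pi * (d ^ 2 / k)))⁻¹ *
        (Real.sqrt (Real.exp 1) * Real.sqrt (2 * Real.pi * (2 / k)))) ^ (m * (k * k)) := by
        simp only [mul_pow, ← pow_mul]
        ring_nf
    _ = _ := by rw [ball_const hk hd, mul_pow, ← pow_mul, mul_comm]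

/-- The moments of the matrices put the sample in the good set. -/
theorem event_subset (F : Finset G) (c d : ℝ) (P : Fin m → FreeAlgebra ℂ G) (hP : ∀ a, SA (P a))
    (f : G → FreeAlgebra ℂ (Fin m)) (hf : ∀ i ∈ F, SA (f i)) (ε : G → ℝ)
    (x : G ⊕ Fin m → Fin k → Fin k → ℝ) (hk : k ≠ 0)
    (h2 : ∀ a, ((k : ℂ)⁻¹ * (FreeAlgebra.lift ℂ (fun e => hermitian (x e))
      (Zp P c d a * Zp P c d a)).trace).re ≤ 2)
    (hε2 : ∀ i ∈ F, ((k : ℂ)⁻¹ * (FreeAlgebra.lift ℂ (fun e => hermitian (x e))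
      ((FreeAlgebra.ι ℂ (Sum.inl i) - FreeAlgebra.lift ℂ (Zp P c d) (f i)) *
        (FreeAlgebra.ι ℂ (Sum.inl i) - FreeAlgebra.lift ℂ (Zp P c d) (f i)))).trace).re ≤ ε i ^ 2) :
    (fun p : (G → Fin k → Fin k → ℝ) × (Fin m → Fin k → Fin k → ℝ) =>
      (p.1, aff (fun y a i j => c * Lower.coords
        (FreeAlgebra.lift ℂ (fun i => hermitian (y i)) (P a)) i j) d p.1 p.2))
      (MeasurableEquiv.sumPiEquivProdPi (fun _ : G ⊕ Fin m => Fin k → Fin k → ℝ) x) ∈
      goodSet F (fun z i => Lower.coords (FreeAlgebra.lift ℂ (fun a => hermitian (z a)) (f i))) ε := by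
  set A : G ⊕ Fin m → Matrix (Fin k) (Fin k) ℂ := fun a => hermitian (x a) with hA
  have hk0 : (0 : ℝ) < k := by exact_mod_cast Nat.pos_of_ne_zero hk
  have hherm : ∀ a, star (A a) = A a := fun a => Lower.hermitian_isHermitian (x a)
  set y : G → Fin k → Fin k → ℝ := fun i => x (Sum.inl i) with hy
  set g : Fin m → Fin k → Fin k → ℝ := fun a => x (Sum.inr a) with hg
  set xc : (G → Fin k → Fin k → ℝ) → Fin m → Fin k → Fin k → ℝ := fun y a i j => c * Lower.coords
    (FreeAlgebra.lift ℂ (fun i => hermitian (y i)) (P a)) i j with hxc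
  have hX : ∀ a, (FreeAlgebra.lift ℂ (fun i => hermitian (y i)) (P a)).IsHermitian := fun a =>
    hP a _ _ fun i => hherm _
  have hZ : ∀ a, FreeAlgebra.lift ℂ A (Zp P c d a) = hermitian (aff xc d y g a) := by
    intro a
    rw [lift_Zp]
    have h1 : hermitian (fun i j => xc y a i j) =
        (c : ℂ) • FreeAlgebra.lift ℂ (fun i => hermitian (y i)) (P a) := by
      conv_rhs => rw [← Lower.hermitian_coords (hX a)]
      ext i j
      simp only [hermitian, xc, Matrix.smul_apply, smul_eq_mul]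
      split_ifs <;> push_cast <;> ring
    show _ = hermitian (fun i j => xc y a i j + d * g a i j)
    rw [Lower.hermitian_add_smul, h1]
  have hre : ∀ (q : FreeAlgebra ℂ (G ⊕ Fin m)) (bnd val : ℝ),
      ((k : ℂ)⁻¹ * (FreeAlgebra.lift ℂ A q).trace).re ≤ bnd →
      (FreeAlgebra.lift ℂ A q).trace = (val : ℂ) → val ≤ k * bnd := by
    intro q bnd val h hval
    rw [hval, ← Complex.ofReal_natCast, ← Complex.ofReal_inv, ← Complex.ofReal_mul,
      Complex.ofReal_re] at h
    calc val = k * ((k : ℝ)⁻¹ * val) := by field_simp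
      _ ≤ k * bnd := mul_le_mul_of_nonneg_left h hk0.le
  refine ⟨fun a => ?_, fun i hi => ?_⟩
  · refine hre _ 2 _ (h2 a) ?_
    show _ = ((Upper.sqSum (aff xc d y g a) : ℝ) : ℂ)
    show (FreeAlgebra.lift ℂ A (Zp P c d a * Zp P c d a)).trace = _
    rw [map_mul, hZ]
    exact Upper.trace_hermitian_sq _
  · refine hre _ (ε i ^ 2) _ (hε2 i hi) ?_
    show _ = ((Upper.sqSum (y i - Lower.coords (FreeAlgebra.lift ℂ
      (fun a => hermitian (aff xc d y g a)) (f i))) : ℝ) : ℂ)
    show (FreeAlgebra.lift ℂ A ((FreeAlgebra.ι ℂ (Sum.inl i) -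
      FreeAlgebra.lift ℂ (Zp P c d) (f i)) * (FreeAlgebra.ι ℂ (Sum.inl i) -
      FreeAlgebra.lift ℂ (Zp P c d) (f i)))).trace = _
    rw [map_mul, map_sub, FreeAlgebra.lift_ι_apply, lift_lift]
    simp only [hZ]
    exact Upper.trace_sq_sub _ (hf i hi _ _ fun a => Lower.hermitian_isHermitian _)

/-- The counting inequality. -/
theorem half_le_of_decoder (m : ℕ) (F : Finset G) (c d : ℝ) (hd : 0 < d)
    (P : Fin m → FreeAlgebra ℂ G) (hP : ∀ a, SA (P a)) (f : G → FreeAlgebra ℂ (Fin m))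
    (hf : ∀ i ∈ F, SA (f i)) (ε : G → ℝ) (hε : ∀ i ∈ F, 0 < ε i)
    (hz : ∀ a, (tr (G ⊕ Fin m) (FreeAlgebra.lift ℂ (ls : G ⊕ Fin m → _)
      (Zp P c d a * Zp P c d a))).re < 2)
    (herr : ∀ i ∈ F, (tr (G ⊕ Fin m) (FreeAlgebra.lift ℂ (ls : G ⊕ Fin m → _)
      ((FreeAlgebra.ι ℂ (Sum.inl i) - FreeAlgebra.lift ℂ (Zp P c d) (f i)) *
        (FreeAlgebra.ι ℂ (Sum.inl i) - FreeAlgebra.lift ℂ (Zp P c d) (f i))))).re < ε i ^ 2) :
    (1 / 2 : ℝ) ≤ (Real.sqrt (2 * Real.exp 1) / d) ^ m * ∏ i ∈ F, Real.sqrt (Real.exp 1) * ε i := by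
  classical
  -- the two kinds of constraints as one family of polynomials
  let Q : Fin m ⊕ F → FreeAlgebra ℂ (G ⊕ Fin m) := Sum.elim (fun a => Zp P c d a * Zp P c d a)
    (fun i => (FreeAlgebra.ι ℂ (Sum.inl i.1) - FreeAlgebra.lift ℂ (Zp P c d) (f i.1)) *
      (FreeAlgebra.ι ℂ (Sum.inl i.1) - FreeAlgebra.lift ℂ (Zp P c d) (f i.1)))
  let bnd : Fin m ⊕ F → ℝ := Sum.elim (fun _ => 2) (fun i => ε i.1 ^ 2)
  set S : G ⊕ Fin m → Hil (G ⊕ Fin m) →L[ℂ] Hil (G ⊕ Fin m) := ls with hS
  have hQ : ∀ e, (tr (G ⊕ Fin m) (FreeAlgebra.lift ℂ S (Q e))).re < bnd e := by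
    rintro (a | i)
    · exact hz a
    · exact herr i.1 i.2
  choose K D hK hclose' using fun e => Lower.exists_trace_close (bas []) S (Q e)
  obtain ⟨δ, hδ0, hδ⟩ : ∃ δ : ℝ, 0 < δ ∧
      ∀ e, (tr (G ⊕ Fin m) (FreeAlgebra.lift ℂ S (Q e))).re + K e * δ ≤ bnd e := by
    have h : ∀ e, ∀ᶠ δ in 𝓝[>] (0 : ℝ),
        (tr (G ⊕ Fin m) (FreeAlgebra.lift ℂ S (Q e))).re + K e * δ ≤ bnd e := by
      intro e
      have h1 : Tendsto (fun δ => (tr (G ⊕ Fin m) (FreeAlgebra.lift ℂ S (Q e))).re + K e * δ)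
          (𝓝[>] (0 : ℝ)) (𝓝 ((tr (G ⊕ Fin m) (FreeAlgebra.lift ℂ S (Q e))).re + K e * 0)) :=
        ((tendsto_id.const_mul _).const_add _).mono_left nhdsWithin_le_nhds
      rw [mul_zero, add_zero] at h1
      filter_upwards [(tendsto_order.1 h1).2 _ (hQ e)] with δ hδ using hδ.le
    obtain ⟨δ, h2, h3⟩ := ((eventually_mem_nhdsWithin).and (eventually_all.2 h)).exists
    exact ⟨δ, h2, h3⟩
  obtain ⟨R, -, hgue⟩ := gue (G ⊕ Fin m)
  obtain ⟨k, hk, hk1⟩ := ((hgue (∑ e, D e) δ hδ0).and (eventually_ge_atTop 1)).exists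
  have hk' : k ≠ 0 := by omega
  set xc : (G → Fin k → Fin k → ℝ) → Fin m → Fin k → Fin k → ℝ := fun y a i j => c * Lower.coords
    (FreeAlgebra.lift ℂ (fun i => hermitian (y i)) (P a)) i j with hxc
  set Ctr : (Fin m → Fin k → Fin k → ℝ) → G → Fin k → Fin k → ℝ := fun z i =>
    Lower.coords (FreeAlgebra.lift ℂ (fun a => hermitian (z a)) (f i)) with hCtr
  have hCc : Continuous Ctr := continuous_pi fun i => continuous_coords.comp (continuous_lift (f i))
  have hxcc : Continuous xc := continuous_pi fun a => continuous_pi fun i => continuous_pi fun j =>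
    continuous_const.mul ((continuous_apply j).comp
      ((continuous_apply i).comp (continuous_coords.comp (continuous_lift (P a)))))
  have hbound := goodSet_le hk' F hxcc hCc hd ε hε
  have hsub := hk.trans ((measure_mono fun x hx => ?_).trans hbound)
  · by_contra hlt
    push Not at hlt
    have h0 : 0 ≤ (Real.sqrt (2 * Real.exp 1) / d) ^ m * ∏ i ∈ F, Real.sqrt (Real.exp 1) * ε i :=
      mul_nonneg (by positivity) (Finset.prod_nonneg fun i hi => by have := hε i hi; positivity)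
    have h1 := lt_of_le_of_lt (pow_le_of_le_one h0 (by linarith) (Nat.mul_ne_zero hk' hk')) hlt
    have h2 := (ENNReal.ofReal_lt_ofReal_iff (by norm_num)).2 h1
    rw [show ENNReal.ofReal (1 / 2) = (2 : ℝ≥0∞)⁻¹ by
      rw [one_div, ENNReal.ofReal_inv_of_pos two_pos, ENNReal.ofReal_ofNat]] at h2
    exact absurd hsub (not_le.2 h2)
  · have hc : ∀ e, ((k : ℂ)⁻¹ * (FreeAlgebra.lift ℂ (fun a => hermitian (x a)) (Q e)).trace).re ≤
        bnd e := by
      intro e
      have h1 := hclose' e k (fun a => hermitian (x a)) δ fun w hw => by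
        have h := (hx.2 w (hw.trans (Finset.single_le_sum (fun e _ => Nat.zero_le (D e))
          (Finset.mem_univ e)))).le
        rw [← tr_moment_relabel (id : G ⊕ Fin m → _) Function.injective_id w] at h
        exact h
      have h2 := (Complex.re_le_norm _).trans h1
      rw [Complex.sub_re] at h2
      have h3 := hδ e
      rw [tr_apply] at h3
      linarith
    exact event_subset F c d P hP f hf ε x hk' (fun a => hc (Sum.inl a))
      (fun i hi => hc (Sum.inr ⟨i, hi⟩))

end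

end Vale.Agent.P086
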