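import Vale.Agent.P086.Defs
import Vale.Agent.P086.Gauss

/-!
# P086: Sobolev rigidity of isomorphisms between free group factors

If `ψ : L(F_ι) ≅ L(F_m)` preserves the trace and the images of the generators `i ∈ F` have
coefficients with `∑_w |w|^{s_i} |c_w|² < ∞`, then `∑_{i ∈ F} s_i ≤ m`.
-/

open Filter
open scoped InnerProductSpace Topology

namespace Vale.Agent.P086

open Vale.Agent.P087 Vale.Agent.P087.Realisation

noncomputable section

variable {ι : Type} [DecidableEq ι] {m : ℕ}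

theorem lift_comp {J A B : Type} [Ring A] [Algebra ℂ A] [Ring B] [Algebra ℂ B] (φ : A →ₐ[ℂ] B)
    (x : J → A) (p : FreeAlgebra ℂ J) :
    φ (FreeAlgebra.lift ℂ x p) = FreeAlgebra.lift ℂ (fun j => φ (x j)) p := by
  have : φ.comp (FreeAlgebra.lift ℂ x) = FreeAlgebra.lift ℂ (fun j => φ (x j)) := by
    ext j
    simp
  exact AlgHom.congr_fun this p

/-- A second basis from an isomorphism of represented star algebras. -/
theorem basis_of_equiv {A B : Type} [Ring A] [StarRing A] [Algebra ℂ A] [StarModule ℂ A]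
    [Ring B] [StarRing B] [Algebra ℂ B] [StarModule ℂ B]
    (eA : A →⋆ₐ[ℂ] Hil ι →L[ℂ] Hil ι) (eB : B →⋆ₐ[ℂ] Hil (Fin m) →L[ℂ] Hil (Fin m))
    (heA : ∀ x, eA x ∈ alg ι) (heB : ∀ x, eB x ∈ alg (Fin m))
    (g : ι → A) (hg : ∀ i, eA (g i) = ls i) (hgs : ∀ i, star (g i) = g i)
    (h : Fin m → B) (hh : ∀ j, eB (h j) = ls j) (hhs : ∀ j, star (h j) = h j)
    (ψ : A ≃⋆ₐ[ℂ] B) (hτ : ∀ x : A, trace (bas []) (eB (ψ x)) = trace (bas []) (eA x)) :
    Basis fun i => eB (ψ (g i)) := by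
  set φ : A →ₐ[ℂ] Hil (Fin m) →L[ℂ] Hil (Fin m) :=
    eB.toAlgHom.comp (ψ.toStarAlgHom.toAlgHom) with hφ
  have hφ' : ∀ x, φ x = eB (ψ x) := fun x => rfl
  have hA' : ∀ x, eA.toAlgHom x = eA x := fun x => rfl
  refine ⟨fun i => heB _, fun i => ?_, fun p => ?_, fun j p c δ hδ => ?_⟩
  · rw [← map_star, ← map_star, hgs]
  · have h1 := hτ (FreeAlgebra.lift ℂ g p)
    rw [← hφ', ← hA', lift_comp φ, lift_comp eA.toAlgHom] at h1
    simp only [hA', hg, hφ'] at h1
    exact h1
  · set Bm : B := ev p ((c : ℂ) • h j) with hBm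
    have hBs : IsSelfAdjoint Bm := isSelfAdjoint_ev p (by
      rw [IsSelfAdjoint, star_smul, hhs, Complex.star_def, Complex.conj_ofReal])
    set a : A := ψ.symm Bm with ha
    have has : IsSelfAdjoint (eA a) := by
      rw [IsSelfAdjoint, ← map_star, ha, ← map_star, hBs.star_eq]
    obtain ⟨W, -, hW, hclose⟩ := exists_wpoly_close (B := eA a) ∅ hδ
    set t : List ι → ℂ := fun w => eA a (bas []) w with ht
    refine ⟨wpoly (FreeAlgebra.ι ℂ) W t, fun C _ _ _ _ x hx => ?_, ?_⟩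
    · rw [lift_wpoly]
      simp only [FreeAlgebra.lift_ι_apply]
      exact wpoly_isSelfAdjoint x hx W t hW (coord_rev (heA a) has)
    · set X : A := FreeAlgebra.lift ℂ g (wpoly (FreeAlgebra.ι ℂ) W t) with hX
      have hXv : eA X (bas []) = ∑ w ∈ W, t w • bas w := by
        rw [hX, ← hA', lift_comp eA.toAlgHom]
        simp only [hA', hg]
        rw [lift_wpoly]
        simp only [FreeAlgebra.lift_ι_apply]
        exact wpoly_ls_bas W t
      have hnorm : ‖eB (ψ (X - a)) (bas [])‖ = ‖eA (X - a) (bas [])‖ := by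
        have h1 := hτ (star (X - a) * (X - a))
        rw [map_mul ψ, map_star ψ, map_mul eA, map_star eA, map_mul eB, map_star eB, ← tr_apply,
          ← tr_apply, tr_star_mul_self, tr_star_mul_self, Complex.ofReal_inj] at h1
        exact (sq_eq_sq₀ (norm_nonneg _) (norm_nonneg _)).1 h1
      have e1 : φ X = FreeAlgebra.lift ℂ (fun i => eB (ψ (g i))) (wpoly (FreeAlgebra.ι ℂ) W t) := by
        rw [hX, lift_comp φ]
        simp only [hφ']
      have e2 : φ a = ev p ((c : ℂ) • (ls j : Hil (Fin m) →L[ℂ] Hil (Fin m))) := by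
        rw [hφ', ha, StarAlgEquiv.apply_symm_apply, hBm,
          show eB (ev p ((c : ℂ) • h j)) = ev p (eB ((c : ℂ) • h j)) from map_ev eB.toAlgHom p _,
          map_smul, hh]
      rw [← e1, ← e2, ← map_sub, hφ', hnorm, map_sub, _root_.sub_apply, hXv]
      exact hclose

theorem star_eq_of_equiv {A B : Type} [Ring A] [StarRing A] [Algebra ℂ A] [Ring B] [StarRing B]
    [Algebra ℂ B] (φ : A ≃⋆ₐ[ℂ] B) {a : A} {b : B} (h : φ a = b) (hb : star b = b) :
    star a = a :=
  EquivLike.injective φ (by rw [map_star, h, hb])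

/-- A trace-preserving isomorphism, given by a map, of the two algebras as star subalgebras. -/
theorem basis_of_map {A : Type} [Ring A] [StarRing A] [Algebra ℂ A] [StarModule ℂ A]
    {B : Type} [Ring B] [StarRing B] [Algebra ℂ B] [StarModule ℂ B]
    (MA : StarSubalgebra ℂ A) (MB : StarSubalgebra ℂ B) (f : A → B)
    (h1 : ∀ x ∈ MA, f x ∈ MB) (h2 : ∀ x ∈ MA, ∀ y ∈ MA, f x = f y → x = y)
    (h3 : ∀ z ∈ MB, ∃ x ∈ MA, f x = z) (h4 : ∀ x ∈ MA, ∀ y ∈ MA, f (x + y) = f x + f y)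
    (h5 : ∀ x ∈ MA, ∀ y ∈ MA, f (x * y) = f x * f y) (h6 : ∀ (c : ℂ), ∀ x ∈ MA, f (c • x) = c • f x)
    (h7 : ∀ x ∈ MA, f (star x) = star (f x)) :
    ∃ ψ : MA ≃⋆ₐ[ℂ] MB, ∀ x : MA, (ψ x : B) = f x := by
  let φ : MA → MB := fun x => ⟨f x, h1 _ x.2⟩
  have hbij : Function.Bijective φ := by
    refine ⟨fun x y h => Subtype.ext (h2 _ x.2 _ y.2 (congrArg Subtype.val h)), fun z => ?_⟩
    obtain ⟨x, hx, hxz⟩ := h3 _ z.2
    exact ⟨⟨x, hx⟩, Subtype.ext hxz⟩
  let eq : MA ≃ MB := Equiv.ofBijective φ hbij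
  let ψ : MA ≃⋆ₐ[ℂ] MB :=
    { eq with
      map_mul' := fun x y => Subtype.ext (h5 _ x.2 _ y.2)
      map_add' := fun x y => Subtype.ext (h4 _ x.2 _ y.2)
      map_star' := fun x => Subtype.ext (h7 _ x.2)
      map_smul' := fun c x => Subtype.ext (h6 c _ x.2) }
  exact ⟨ψ, fun x => rfl⟩

section Concrete

/-- The algebra of a model as a star subalgebra. -/
def Model.alg' (A : Model ι) : StarSubalgebra ℂ A.Op :=
  StarSubalgebra.centralizer ℂ (StarSubalgebra.centralizer ℂ (Set.range A.S) : Set A.Op)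

/-- Transport of an operator to the concrete Fock space. -/
def toFock (A : Model ι) : A.Op ≃⋆ₐ[ℂ] (Hil ι →L[ℂ] Hil ι) := A.e.repr.conjStarAlgEquiv

theorem repr_basis (A : Model ι) (w : List ι) : A.e.repr (A.e w) = bas w := by
  rw [A.e.repr_self]
  rfl

theorem toFock_apply_bas (A : Model ι) (X : A.Op) (w : List ι) :
    toFock A X (bas w) = A.e.repr (X (A.e w)) := by
  rw [toFock, LinearIsometryEquiv.conjStarAlgEquiv_apply_apply, ← repr_basis A w,
    LinearIsometryEquiv.symm_apply_apply]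

theorem coord_toFock (A : Model ι) (X : A.Op) (u w : List ι) :
    toFock A X (bas u) w = ⟪A.e w, X (A.e u)⟫_ℂ := by
  rw [toFock_apply_bas, A.e.repr_apply_apply]

theorem toFock_gen (A : Model ι) (i : ι) : toFock A (A.S i) = ls i := by
  refine ext_bas fun w => ?_
  rw [toFock_apply_bas, A.rule, map_add, repr_basis, ls, _root_.add_apply, lc_bas]
  congr 1
  rcases w with _ | ⟨b, v⟩
  · simp [star_lc_nil]
  · rw [star_lc_cons]
    by_cases h : b = i
    · subst h
      simp [repr_basis]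
    · simp [h, Ne.symm h]

theorem star_S (A : Model ι) (i : ι) : star (A.S i) = A.S i :=
  star_eq_of_equiv (toFock A) (toFock_gen A i) (star_ls i)

theorem inAlg_iff (A : Model ι) (X : A.Op) : A.InAlg X ↔ X ∈ A.alg' := by
  rw [Model.alg', StarSubalgebra.mem_centralizer_iff]
  have hc : ∀ Y : A.Op, Y ∈ StarSubalgebra.centralizer ℂ (Set.range A.S) ↔
      ∀ i, Y * A.S i = A.S i * Y := by
    intro Y
    rw [StarSubalgebra.mem_centralizer_iff]
    constructor
    · exact fun h i => (h _ ⟨i, rfl⟩).1.symm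
    · rintro h _ ⟨i, rfl⟩
      rw [star_S]
      exact ⟨(h i).symm, (h i).symm⟩
  constructor
  · intro h Y hY
    refine ⟨(h Y ((hc Y).1 hY)).symm, (h (star Y) ?_).symm⟩
    exact (hc (star Y)).1 (star_mem hY)
  · exact fun h Y hY => ((h Y ((hc Y).2 hY)).1).symm

theorem S_mem (A : Model ι) (i : ι) : A.InAlg (A.S i) := fun Y hY => (hY i).symm

theorem toFock_mem_alg (A : Model ι) {X : A.Op} (hX : A.InAlg X) : toFock A X ∈ alg ι := by
  refine mem_alg_iff.2 fun b => ?_
  have h := hX ((toFock A).symm (rs b)) fun i => by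
    refine EquivLike.injective (toFock A) ?_
    rw [map_mul, map_mul, StarAlgEquiv.apply_symm_apply, toFock_gen]
    exact (ls_rs_comm i b).symm
  have h2 := congrArg (toFock A) h
  rw [map_mul, map_mul, StarAlgEquiv.apply_symm_apply] at h2
  exact h2.symm

theorem trace_toFock (A : Model ι) (X : A.Op) : trace (bas []) (toFock A X) = A.tau X := by
  rw [trace, inner_bas_left, coord_toFock]
  rfl

/-- A trace-preserving isomorphism gives a second basis. -/
theorem exists_basis (A : Model ι) (B : Model (Fin m)) (f : A.Op → B.Op) (hf : IsTraceIso A B f) :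
    Basis fun i => toFock B (f (A.S i)) := by
  obtain ⟨h1, h2, h3, h4, h5, h6, h7, h8⟩ := hf
  obtain ⟨ψ, hψ⟩ := basis_of_map A.alg' B.alg' f
    (fun x hx => (inAlg_iff B _).1 (h1 x ((inAlg_iff A x).2 hx)))
    (fun x hx y hy => h2 x y ((inAlg_iff A x).2 hx) ((inAlg_iff A y).2 hy))
    (fun z hz => by
      obtain ⟨x, hx, hxz⟩ := h3 z ((inAlg_iff B z).2 hz)
      exact ⟨x, (inAlg_iff A x).1 hx, hxz⟩)
    (fun x hx y hy => h4 x y ((inAlg_iff A x).2 hx) ((inAlg_iff A y).2 hy))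
    (fun x hx y hy => h5 x y ((inAlg_iff A x).2 hx) ((inAlg_iff A y).2 hy))
    (fun c x hx => h6 c x ((inAlg_iff A x).2 hx))
    (fun x hx => h7 x ((inAlg_iff A x).2 hx))
  have hS : ∀ i, A.S i ∈ A.alg' := fun i => (inAlg_iff A _).1 (S_mem A i)
  have hT : ∀ j, B.S j ∈ B.alg' := fun j => (inAlg_iff B _).1 (S_mem B j)
  have := basis_of_equiv (((toFock A).toStarAlgHom).comp A.alg'.subtype)
    (((toFock B).toStarAlgHom).comp B.alg'.subtype)
    (fun x => toFock_mem_alg A ((inAlg_iff A _).2 x.2))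
    (fun x => toFock_mem_alg B ((inAlg_iff B _).2 x.2))
    (fun i => ⟨A.S i, hS i⟩) (fun i => toFock_gen A i) (fun i => Subtype.ext (star_S A i))
    (fun j => ⟨B.S j, hT j⟩) (fun j => toFock_gen B j) (fun j => Subtype.ext (star_S B j)) ψ
    (fun x => by
      show trace (bas []) (toFock B (ψ x : B.Op)) = trace (bas []) (toFock A (x : A.Op))
      rw [trace_toFock, trace_toFock, hψ, h8 _ ((inAlg_iff A _).2 x.2)])
  have e : (fun i => toFock B (f (A.S i))) = fun i =>
      (((toFock B).toStarAlgHom).comp B.alg'.subtype) (ψ ⟨A.S i, hS i⟩) := by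
    funext i
    show _ = toFock B (ψ ⟨A.S i, hS i⟩ : B.Op)
    rw [hψ]
  rw [e]
  exact this

/-- The concrete model. -/
def fockModel (ι : Type) [DecidableEq ι] : Model ι where
  Space := Hil ι
  e := HilbertBasis.ofRepr (LinearIsometryEquiv.refl ℂ _)
  S := ls
  rule i w := by
    set e : HilbertBasis (List ι) ℂ (Hil ι) := HilbertBasis.ofRepr (LinearIsometryEquiv.refl ℂ _)
      with he'
    have he : ∀ w, e w = bas w := fun w => e.repr_self w
    simp only [he, ls, _root_.add_apply, lc_bas]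
    congr 1
    rcases w with _ | ⟨b, v⟩
    · simp [star_lc_nil]
    · rw [star_lc_cons]
      by_cases h : b = i
      · subst h; simp
      · simp [h, Ne.symm h]

end Concrete

theorem exists_finite_letters {J : Type} [DecidableEq J] (p : FreeAlgebra ℂ J) :
    ∃ G : Finset J, ∀ G' : Finset J, G ⊆ G' →
      ∃ q : FreeAlgebra ℂ G', FreeAlgebra.lift ℂ (fun i : G' => FreeAlgebra.ι ℂ (i : J)) q = p := by
  induction p using FreeAlgebra.induction with
  | grade0 c => exact ⟨∅, fun G' _ => ⟨algebraMap ℂ _ c, AlgHom.commutes _ c⟩⟩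
  | grade1 a =>
    refine ⟨{a}, fun G' h => ⟨FreeAlgebra.ι ℂ ⟨a, h (Finset.mem_singleton_self a)⟩, ?_⟩⟩
    rw [FreeAlgebra.lift_ι_apply]
  | mul p q hp hq =>
    obtain ⟨G1, h1⟩ := hp
    obtain ⟨G2, h2⟩ := hq
    refine ⟨G1 ∪ G2, fun G' h => ?_⟩
    obtain ⟨p', rfl⟩ := h1 G' (Finset.subset_union_left.trans h)
    obtain ⟨q', rfl⟩ := h2 G' (Finset.subset_union_right.trans h)
    exact ⟨p' * q', map_mul _ _ _⟩
  | add p q hp hq =>
    obtain ⟨G1, h1⟩ := hp
    obtain ⟨G2, h2⟩ := hq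
    refine ⟨G1 ∪ G2, fun G' h => ?_⟩
    obtain ⟨p', rfl⟩ := h1 G' (Finset.subset_union_left.trans h)
    obtain ⟨q', rfl⟩ := h2 G' (Finset.subset_union_right.trans h)
    exact ⟨p' + q', map_add _ _ _⟩

/-- The inequality at a fixed noise level. -/
theorem decoder_ineq {T : ι → Hil (Fin m) →L[ℂ] Hil (Fin m)} (hT : Basis T) (s : ι → ℝ)
    (F : Finset ι) (hs : ∀ i ∈ F, 0 ≤ s i ∧ s i ≤ 1 ∧
      Summable fun w : List (Fin m) => (w.length : ℝ) ^ s i * ‖T i (bas []) w‖ ^ 2)
    {σ : ℝ} (hσ : 0 < σ) (hσ1 : σ ≤ 1) :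
    (1 / 2 : ℝ) ≤ (Real.sqrt (2 * Real.exp 1) / σ) ^ m * ∏ i ∈ F, Real.sqrt (Real.exp 1) *
      (Real.sqrt (2 + 2 * ∑' w : List (Fin m), (w.length : ℝ) ^ s i * ‖T i (bas []) w‖ ^ 2) *
        σ ^ s i) := by
  classical
  obtain ⟨P, hPs, hP, hPb⟩ := exists_approximants hT
  have hx : Good (xseq P) := good_xseq hT hP hPb
  set c := Real.sqrt (1 - σ ^ 2) with hc
  have hcd : c ^ 2 + σ ^ 2 = 1 := by
    rw [hc, Real.sq_sqrt (by nlinarith)]
    ring
  set K : ι → ℝ := fun i => 2 + 2 * ∑' w : List (Fin m),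
    (w.length : ℝ) ^ s i * ‖T i (bas []) w‖ ^ 2 with hK
  have hK0 : ∀ i, 0 < K i := fun i => by
    have : 0 ≤ ∑' w : List (Fin m), (w.length : ℝ) ^ s i * ‖T i (bas []) w‖ ^ 2 :=
      tsum_nonneg fun w => mul_nonneg (Real.rpow_nonneg (Nat.cast_nonneg _) _) (sq_nonneg _)
    simp only [hK]
    linarith
  set ε : ι → ℝ := fun i => Real.sqrt (K i) * σ ^ s i with hε
  have hε0 : ∀ i, 0 < ε i := fun i => mul_pos (Real.sqrt_pos.2 (hK0 i)) (Real.rpow_pos_of_pos hσ _)
  have hW : ∀ i, ∃ W : Finset (List (Fin m)), (∀ w ∈ W, w.reverse ∈ W) ∧ (i ∈ F →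
      1 + ∑ w ∈ W, ‖T i (bas []) w‖ ^ 2 - 2 * ∑ w ∈ W, c ^ w.length * ‖T i (bas []) w‖ ^ 2 <
        ε i ^ 2) := by
    intro i
    by_cases hi : i ∈ F
    · obtain ⟨W, h1, h2⟩ := exists_truncation hT i (hs i hi).1 (hs i hi).2.1 (hs i hi).2.2 hσ hσ1
      refine ⟨W, h1, fun _ => h2.trans_lt ?_⟩
      have h3 : ε i ^ 2 = K i * σ ^ (2 * s i) := by
        rw [hε, mul_pow, Real.sq_sqrt (hK0 i).le, ← Real.rpow_natCast (σ ^ s i) 2,
          ← Real.rpow_mul hσ.le, mul_comm (s i)]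
        norm_num
      rw [h3]
      have := Real.rpow_pos_of_pos hσ (2 * s i)
      simp only [hK]
      nlinarith
    · exact ⟨∅, by simp, fun h => absurd h hi⟩
  choose W hWr hWe using hW
  -- choose the approximation step
  have hzlim : ∀ a, Tendsto (fun r => (tr (ι ⊕ Fin m) (zseq P c σ r a * zseq P c σ r a)).re) atTop
      (𝓝 1) := by
    intro a
    have h := (tendsto_wick_pair (tr (ι ⊕ Fin m)) (zseq P c σ) (tendsto_wick_zseq hx c σ hcd)
      [a] [a])
    simp only [List.reverse_singleton, wickOf, if_pos] at h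
    simpa [Function.comp_def] using (Complex.continuous_re.tendsto _).comp h
  have hflim : ∀ i, Tendsto (fun r => (tr (ι ⊕ Fin m)
        ((ls (Sum.inl i) - wpoly (zseq P c σ r) (W i) (fun w => T i (bas []) w)) *
          (ls (Sum.inl i) - wpoly (zseq P c σ r) (W i) (fun w => T i (bas []) w)))).re) atTop
      (𝓝 (1 + ∑ w ∈ W i, ‖T i (bas []) w‖ ^ 2 -
        2 * ∑ w ∈ W i, c ^ w.length * ‖T i (bas []) w‖ ^ 2)) := by
    intro i
    have h := (Complex.continuous_re.tendsto _).comp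
      (tendsto_error hT hP hx c σ hcd i (W i) (hWr i))
    rw [Complex.ofReal_re] at h
    exact h
  obtain ⟨r, hrz, hrf⟩ : ∃ r, (∀ a, (tr (ι ⊕ Fin m) (zseq P c σ r a * zseq P c σ r a)).re < 2) ∧
      ∀ i ∈ F, (tr (ι ⊕ Fin m)
        ((ls (Sum.inl i) - wpoly (zseq P c σ r) (W i) (fun w => T i (bas []) w)) *
          (ls (Sum.inl i) - wpoly (zseq P c σ r) (W i) (fun w => T i (bas []) w)))).re < ε i ^ 2 :=
    ((eventually_all.2 fun a => (tendsto_order.1 (hzlim a)).2 2 one_lt_two).and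
      (F.eventually_all.2 fun i hi => (tendsto_order.1 (hflim i)).2 _ (hWe i hi))).exists
  -- restrict to finitely many letters
  choose Gp hGp using fun a => exists_finite_letters (P r a)
  set G : Finset ι := F ∪ Finset.univ.biUnion Gp with hG
  choose P' hP' using fun a => hGp a G
    ((Finset.subset_biUnion_of_mem Gp (Finset.mem_univ a)).trans Finset.subset_union_right)
  set f : G → FreeAlgebra ℂ (Fin m) := fun i =>
    wpoly (FreeAlgebra.ι ℂ) (W i) (fun w => T i (bas []) w) with hf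
  have hfs : ∀ i : G, SA (f i) := fun i A _ _ _ _ x hx => by
    rw [hf, lift_wpoly]
    simp only [FreeAlgebra.lift_ι_apply]
    exact wpoly_isSelfAdjoint x hx _ _ (hWr i) (coord_rev (hT.mem i) (hT.sa i))
  have hPs' : ∀ a, SA (P' a) := fun a A _ _ _ _ x hx => by
    set x' : ι → A := fun i => if h : i ∈ G then x ⟨i, h⟩ else 0 with hx'
    have h := hPs r a A x' fun i => by
      simp only [hx']
      split_ifs
      · exact hx _
      · exact star_zero A
    rw [← hP' a, lift_lift] at h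
    simp only [FreeAlgebra.lift_ι_apply] at h
    have e : (fun i : G => x' i) = x := funext fun i => by simp [hx']
    rwa [e] at h
  -- transport the traces
  set j : G ⊕ Fin m → ι ⊕ Fin m := Sum.map Subtype.val id with hj
  have hjinj : Function.Injective j := Sum.map_injective.2 ⟨Subtype.val_injective, Function.injective_id⟩
  have hZ : ∀ a, FreeAlgebra.lift ℂ (fun e => (ls (j e) : Hil (ι ⊕ Fin m) →L[ℂ] _)) (Zp P' c σ a) =
      zseq P c σ r a := by
    intro a
    rw [zseq, lift_Zp, lift_Zp, ← hP' a, lift_lift]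
    simp only [FreeAlgebra.lift_ι_apply]
    rfl
  have hmain := half_le_of_decoder m (F.subtype (· ∈ G)) c σ hσ P' hPs' f (fun i _ => hfs i)
    (fun i => ε i) (fun i _ => hε0 i) (fun a => by
      rw [← tr_lift_relabel j hjinj, map_mul, hZ]
      exact hrz a) (fun i hi => by
      rw [← tr_lift_relabel j hjinj, map_mul, map_sub, FreeAlgebra.lift_ι_apply, lift_lift]
      simp only [hZ, hf, lift_wpoly, FreeAlgebra.lift_ι_apply]
      exact hrf i (Finset.mem_subtype.1 hi))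
  rw [Finset.prod_subtype_of_mem (fun i => Real.sqrt (Real.exp 1) * ε i)
    (fun i hi => Finset.mem_union_left _ hi)] at hmain
  exact hmain

/-- Sobolev rigidity of a second basis. -/
theorem sum_exponents_le {T : ι → Hil (Fin m) →L[ℂ] Hil (Fin m)} (hT : Basis T) (s : ι → ℝ)
    (F : Finset ι) (hs : ∀ i ∈ F, 0 ≤ s i ∧ s i ≤ 1 ∧
      Summable fun w : List (Fin m) => (w.length : ℝ) ^ s i * ‖T i (bas []) w‖ ^ 2) :
    ∑ i ∈ F, s i ≤ m := by
  by_contra hlt
  push Not at hlt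
  set e := (∑ i ∈ F, s i) - m with he
  have he0 : 0 < e := by linarith
  set C := Real.sqrt (2 * Real.exp 1) ^ m * ∏ i ∈ F, Real.sqrt (Real.exp 1) *
    Real.sqrt (2 + 2 * ∑' w : List (Fin m), (w.length : ℝ) ^ s i * ‖T i (bas []) w‖ ^ 2) with hC
  have hineq : ∀ᶠ σ : ℝ in 𝓝[>] 0, (1 / 2 : ℝ) ≤ C * σ ^ e := by
    filter_upwards [Ioc_mem_nhdsGT (zero_lt_one : (0 : ℝ) < 1)] with σ hσ
    refine (decoder_ineq hT s F hs hσ.1 hσ.2).trans (le_of_eq ?_)
    rw [he, Real.rpow_sub hσ.1, Real.rpow_sum_of_pos hσ.1, Real.rpow_natCast, hC, div_pow,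
      Finset.prod_congr rfl fun i _ => (mul_assoc _ _ _).symm, Finset.prod_mul_distrib]
    ring
  have hlim : Tendsto (fun σ : ℝ => C * σ ^ e) (𝓝[>] 0) (𝓝 0) := by
    have h := ((Real.continuousAt_rpow_const 0 e (Or.inr he0.le)).tendsto.mono_left
      (nhdsWithin_le_nhds (s := Set.Ioi (0 : ℝ)))).const_mul C
    simpa [Real.zero_rpow he0.ne'] using h
  linarith [ge_of_tendsto hlim hineq]

end

end Vale.Agent.P086
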